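import Vale.Agent.P092.H107.Nws
import Vale.Agent.P092.H859.CNA

/-!
P092, Team N, row [N-NWS] (helper632): uniform tails along the conjugates of the powers of a wall
element, for walls of any type, any groups, and any family of near-wall sets.
-/

set_option linter.all false

namespace Vale.Agent.P092.H632.NwsN

open Filter Topology ContinuousLinearMap
open scoped InnerProductSpace
open Vale.Agent.P092.H859 Vale.Agent.P092.H859.CL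
open Vale.Agent.P092.H107 (LocAt tail_shift full_compl)

variable {Γ D K : Type} [Group Γ] [Group D] [NormedAddCommGroup K] [InnerProductSpace ℂ K]
  [CompleteSpace K] {m : Set Γ → (K →L[ℂ] K)} {R : D → (K →L[ℂ] K)} {Bd Bf : Set K}
  {ms : D → Set Γ → ℝ} {A : Subgroup D} {Br : ℝ → Set Γ} {G1 G2 : Γ → ℝ}

/-- Uniform tails of `G2` along a sequence with full mass, from the absence of mass on
`{G1 > r, G2 > r}` on all vectors. -/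
theorem tail_of (hm : Prj m) (hR : Rep R) {wN : ℕ → D}
    (hnrv : ∀ ξ, ∀ ε : ℝ, 0 < ε → ∃ r, ∀ N, ‖m (BB G1 G2 r) (R (wN N) ξ)‖ ≤ ε)
    (hf : Full m R G1 G2 (map wN atTop))
    (hfin : ∀ ξ, ∀ ε : ℝ, 0 < ε → ∃ F : Finset Γ, ‖m ((F : Set Γ))ᶜ ξ‖ ≤ ε) (ξ : K) {ε : ℝ}
    (hε : 0 < ε) : ∃ r, ∀ N, ‖m {g | r < G2 g} (R (wN N) ξ)‖ ≤ ε := by
  classical
  obtain ⟨r1, hr1⟩ := hnrv ξ (ε / 2) (by positivity)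
  have h1 : Tendsto (fun N => ‖m {g | G1 g < G2 g} (R (wN N) ξ)‖) atTop (𝓝 0) :=
    full_compl hm hR hf ξ
  obtain ⟨N0, hN0⟩ := eventually_atTop.mp (h1.eventually_le_const (u := ε / 2) (by positivity))
  choose F hF using fun N => hfin (R (wN N) ξ) ε hε
  obtain ⟨U, hU⟩ : ∃ U : Finset Γ, U = (Finset.range N0).biUnion F := ⟨_, rfl⟩
  obtain ⟨r2, hr2⟩ := (U.finite_toSet.image G2).bddAbove
  refine ⟨max r1 r2, fun N => ?_⟩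
  rcases lt_or_ge N N0 with hN | hN
  · refine (hm.mono ?_ _).trans (hF N)
    intro g hg hgF
    have h2 : G2 g ≤ r2 := by
      refine hr2 ⟨g, ?_, rfl⟩
      rw [hU]
      exact Finset.mem_coe.mpr (Finset.mem_biUnion.mpr ⟨N, Finset.mem_range.mpr hN, hgF⟩)
    have h3 : max r1 r2 < G2 g := hg
    exact absurd (h2.trans (le_max_right r1 r2)) (not_le.mpr h3)
  · have hsub : {g | max r1 r2 < G2 g} ⊆ {g | G1 g < G2 g} ∪ BB G1 G2 r1 := by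
      intro g hg
      have h3 : max r1 r2 < G2 g := hg
      have h4 := (le_max_left r1 r2).trans_lt h3
      by_cases h5 : G1 g < G2 g
      · exact Or.inl h5
      · exact Or.inr ⟨h4.trans_le (not_lt.mp h5), h4⟩
    have h6 := hm.mono hsub (R (wN N) ξ)
    have h7 := hm.norm_union_le {g | G1 g < G2 g} (BB G1 G2 r1) (R (wN N) ξ)
    have h8 := hr1 N
    have h9 := hN0 N hN
    linarith

/-- Uniform tails of `G2` along the inverses of the powers of `b`, on all vectors. -/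
theorem tail_pow (h : CN.Sys m R Bd ms A Br G1 G2) {b : D} (hA : ∀ N : ℕ, (b ^ N)⁻¹ ∈ A)
    (hf : Full m R G1 G2 (map (fun N : ℕ => (b ^ N)⁻¹) atTop))
    (hfin : ∀ ξ, ∀ ε : ℝ, 0 < ε → ∃ F : Finset Γ, ‖m ((F : Set Γ))ᶜ ξ‖ ≤ ε) (ξ : K) {ε : ℝ}
    (hε : 0 < ε) : ∃ r, ∀ N : ℕ, ‖m {g | r < G2 g} (R (b ^ N)⁻¹ ξ)‖ ≤ ε :=
  tail_of h.prj h.rep (fun ξ ε hε => by
    obtain ⟨r, hr⟩ := h.nrv' ξ hε
    exact ⟨r, fun N => hr _ (hA N)⟩) hf hfin ξ hε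

/-- The class of vectors with uniform tails is stable under limits. -/
theorem tail_dense (hm : Prj m) (hR : Rep R) {ι : Type*} (w : ι → D) (G : Γ → ℝ) {S : Set K}
    (hS : Dense S) (h : ∀ ξ ∈ S, ∀ ε : ℝ, 0 < ε → ∃ r, ∀ i, ‖m {g | r < G g} (R (w i) ξ)‖ ≤ ε)
    (ξ : K) {ε : ℝ} (hε : 0 < ε) : ∃ r, ∀ i, ‖m {g | r < G g} (R (w i) ξ)‖ ≤ ε := by
  obtain ⟨η, hη, hd⟩ := Metric.mem_closure_iff.mp (hS ξ) (ε / 2) (by positivity)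
  obtain ⟨r, hr⟩ := h η hη (ε / 2) (by positivity)
  refine ⟨r, fun i => ?_⟩
  have h1 := hr i
  have h2 : m {g | r < G g} (R (w i) ξ) =
      m {g | r < G g} (R (w i) (ξ - η)) + m {g | r < G g} (R (w i) η) := by
    rw [← map_add, ← map_add, sub_add_cancel]
  rw [dist_eq_norm] at hd
  have h3 : ‖m {g | r < G g} (R (w i) (ξ - η))‖ ≤ ε / 2 :=
    ((hm.norm_le _ _).trans (hR.norm_le _ _)).trans hd.le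
  rw [h2]
  exact (norm_add_le _ _).trans (by linarith)

/-- Uniform tails of `G2` along the conjugates `g b ^ N g⁻¹`, on vectors of `Bf`. -/
theorem tail_conj (h : CN.Sys m R Bd ms A Br G1 G2) {b : D} (hA : ∀ N : ℕ, (b ^ N)⁻¹ ∈ A)
    (hf : Full m R G1 G2 (map (fun N : ℕ => (b ^ N)⁻¹) atTop))
    (hfin : ∀ ξ, ∀ ε : ℝ, 0 < ε → ∃ F : Finset Γ, ‖m ((F : Set Γ))ᶜ ξ‖ ≤ ε)
    (hloc : ∀ v, LocAt m (R v) Bf) (hmap : ∀ v, ∀ ζ ∈ Bf, R v ζ ∈ Bf)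
    (hG : ∀ u, ∃ C, ∀ g, |G2 (g * u) - G2 g| ≤ C) {ξ : K} (hξ : ξ ∈ Bf) (g : D) {ε : ℝ}
    (hε : 0 < ε) : ∃ r, ∀ N : ℕ, ‖m {γ | r < G2 γ} (R (g * b ^ N * g⁻¹)⁻¹ ξ)‖ ≤ ε := by
  have h1 : ∀ ε : ℝ, 0 < ε → ∃ r, ∀ N : ℕ,
      ‖m {γ | r < G2 γ} (R (b ^ N)⁻¹ (R g⁻¹ ξ))‖ ≤ ε := fun ε hε =>
    tail_pow h hA hf hfin (R g⁻¹ ξ) hε
  obtain ⟨r, hr⟩ := tail_shift h.prj (hloc g) hG
    (fun N : ℕ => R (b ^ N)⁻¹ (R g⁻¹ ξ)) (fun N => hmap _ _ (hmap _ _ hξ)) h1 hε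
  refine ⟨r, fun N => ?_⟩
  have e : R (g * b ^ N * g⁻¹)⁻¹ ξ = R g (R (b ^ N)⁻¹ (R g⁻¹ ξ)) := by
    have : (g * b ^ N * g⁻¹)⁻¹ = g * ((b ^ N)⁻¹ * g⁻¹) := by group
    rw [this, h.rep.mul, h.rep.mul]
    rfl
  rw [e]
  exact hr N

/-- The same on all vectors, if `Bf` is dense. -/
theorem tail_conj' (h : CN.Sys m R Bd ms A Br G1 G2) {b : D} (hA : ∀ N : ℕ, (b ^ N)⁻¹ ∈ A)
    (hf : Full m R G1 G2 (map (fun N : ℕ => (b ^ N)⁻¹) atTop))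
    (hfin : ∀ ξ, ∀ ε : ℝ, 0 < ε → ∃ F : Finset Γ, ‖m ((F : Set Γ))ᶜ ξ‖ ≤ ε)
    (hloc : ∀ v, LocAt m (R v) Bf) (hmap : ∀ v, ∀ ζ ∈ Bf, R v ζ ∈ Bf) (hBf : Dense Bf)
    (hG : ∀ u, ∃ C, ∀ g, |G2 (g * u) - G2 g| ≤ C) (ξ : K) (g : D) {ε : ℝ}
    (hε : 0 < ε) : ∃ r, ∀ N : ℕ, ‖m {γ | r < G2 γ} (R (g * b ^ N * g⁻¹)⁻¹ ξ)‖ ≤ ε :=
  tail_dense h.prj h.rep (fun N : ℕ => (g * b ^ N * g⁻¹)⁻¹) G2 hBf
    (fun ξ hξ ε hε => tail_conj h hA hf hfin hloc hmap hG hξ g hε) ξ hε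

/-- From tails of `G2` to near-wall sets: any family `P` of sets which contains the sublevel sets
of `G2`. -/
theorem nw_of_tail (hm : Prj m) {P : ℝ → Set Γ} (hP : ∀ r : ℝ, ∃ ρ : ℝ, ∀ γ, G2 γ ≤ r → γ ∈ P ρ)
    {ι : Type*} {ζ : ι → K} {ε : ℝ} (h : ∃ r, ∀ i, ‖m {γ | r < G2 γ} (ζ i)‖ ≤ ε) :
    ∃ ρ, ∀ i, ‖m (P ρ)ᶜ (ζ i)‖ ≤ ε := by
  obtain ⟨r, hr⟩ := h
  obtain ⟨ρ, hρ⟩ := hP r
  refine ⟨ρ, fun i => (hm.mono ?_ _).trans (hr i)⟩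
  intro γ hγ
  by_contra h3
  exact hγ (hρ γ (not_lt.mp h3))

/-- **[N-NWS]** The near-wall field, for walls of any type. -/
theorem nws_abs (h : CN.Sys m R Bd ms A Br G1 G2) {b : D} (hA : ∀ N : ℕ, (b ^ N)⁻¹ ∈ A)
    (hf : Full m R G1 G2 (map (fun N : ℕ => (b ^ N)⁻¹) atTop))
    (hfin : ∀ ξ, ∀ ε : ℝ, 0 < ε → ∃ F : Finset Γ, ‖m ((F : Set Γ))ᶜ ξ‖ ≤ ε)
    (hloc : ∀ v, LocAt m (R v) Bf) (hmap : ∀ v, ∀ ζ ∈ Bf, R v ζ ∈ Bf)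
    (hG : ∀ u, ∃ C, ∀ g, |G2 (g * u) - G2 g| ≤ C) {P : ℝ → Set Γ}
    (hP : ∀ r : ℝ, ∃ ρ : ℝ, ∀ γ, G2 γ ≤ r → γ ∈ P ρ) {Ω : K} (hΩ : Ω ∈ Bf) (g : D) {ε : ℝ}
    (hε : 0 < ε) : ∃ ρ : ℝ, ∀ N : ℕ, ‖m (P ρ)ᶜ (R (g * b ^ N * g⁻¹)⁻¹ Ω)‖ ≤ ε :=
  nw_of_tail h.prj hP (tail_conj h hA hf hfin hloc hmap hG hΩ g hε)

/-- The near-wall field on all vectors. -/
theorem nws_all (h : CN.Sys m R Bd ms A Br G1 G2) {b : D} (hA : ∀ N : ℕ, (b ^ N)⁻¹ ∈ A)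
    (hf : Full m R G1 G2 (map (fun N : ℕ => (b ^ N)⁻¹) atTop))
    (hfin : ∀ ξ, ∀ ε : ℝ, 0 < ε → ∃ F : Finset Γ, ‖m ((F : Set Γ))ᶜ ξ‖ ≤ ε)
    (hloc : ∀ v, LocAt m (R v) Bf) (hmap : ∀ v, ∀ ζ ∈ Bf, R v ζ ∈ Bf) (hBf : Dense Bf)
    (hG : ∀ u, ∃ C, ∀ g, |G2 (g * u) - G2 g| ≤ C) {P : ℝ → Set Γ}
    (hP : ∀ r : ℝ, ∃ ρ : ℝ, ∀ γ, G2 γ ≤ r → γ ∈ P ρ) (ξ : K) (g : D) {ε : ℝ}
    (hε : 0 < ε) : ∃ ρ : ℝ, ∀ N : ℕ, ‖m (P ρ)ᶜ (R (g * b ^ N * g⁻¹)⁻¹ ξ)‖ ≤ ε :=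
  nw_of_tail h.prj hP (tail_conj' h hA hf hfin hloc hmap hBf hG ξ g hε)

/-- Several conditions at once (one gap of one factor near the wall, the other factors tight): a
finite intersection of tight families is tight. -/
theorem nw_inter (hm : Prj m) {P Q : ℝ → Set Γ} (hPm : Monotone P) (hQm : Monotone Q) {ι : Type*}
    {ζ : ι → K} (hp : ∀ ε : ℝ, 0 < ε → ∃ ρ, ∀ i, ‖m (P ρ)ᶜ (ζ i)‖ ≤ ε)
    (hq : ∀ ε : ℝ, 0 < ε → ∃ ρ, ∀ i, ‖m (Q ρ)ᶜ (ζ i)‖ ≤ ε) {ε : ℝ} (hε : 0 < ε) :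
    ∃ ρ, ∀ i, ‖m (P ρ ∩ Q ρ)ᶜ (ζ i)‖ ≤ ε := by
  obtain ⟨r1, h1⟩ := hp (ε / 2) (by positivity)
  obtain ⟨r2, h2⟩ := hq (ε / 2) (by positivity)
  refine ⟨max r1 r2, fun i => ?_⟩
  have h3 : (P (max r1 r2) ∩ Q (max r1 r2))ᶜ ⊆ (P r1)ᶜ ∪ (Q r2)ᶜ := by
    intro x hx
    by_contra h4
    simp only [Set.mem_union, Set.mem_compl_iff, not_or, not_not] at h4
    exact hx ⟨hPm (le_max_left _ _) h4.1, hQm (le_max_right _ _) h4.2⟩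
  have h4 := hm.mono h3 (ζ i)
  have h5 := hm.norm_union_le (P r1)ᶜ (Q r2)ᶜ (ζ i)
  have h6 := h1 i
  have h7 := h2 i
  linarith

end Vale.Agent.P092.H632.NwsN
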