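import Vale.Agent.P092.H632.Vol
import Vale.Agent.P092.SR.Icc

/-!
The filter of subgroups of a dense subgroup of `SL_N(k)` and the volume bound.
-/

set_option linter.all false

open Matrix Matrix.SpecialLinearGroup Topology MeasureTheory MeasureTheory.Measure
open Vale.Agent.P092.H971
open scoped ENNReal NNReal

namespace Vale.Agent.P092.H632

section gen

variable {Γ H : Type} [Group Γ] [Group H] [TopologicalSpace H] [IsTopologicalGroup H] {p : Γ →* H}

/-- The subgroups of `Γ` containing the trace of a compact open subgroup. -/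
def flt (p : Γ →* H) : Set (Subgroup Γ) :=
  {S | ∃ K : Subgroup H, IsOpen (K : Set H) ∧ IsCompact (K : Set H) ∧ K.comap p ≤ S}

theorem flt_up {U S : Subgroup Γ} (hU : U ∈ flt p) (h : U ≤ S) : S ∈ flt p := by
  obtain ⟨K, h1, h2, h3⟩ := hU
  exact ⟨K, h1, h2, h3.trans h⟩

theorem flt_inf {U S : Subgroup Γ} (hU : U ∈ flt p) (hS : S ∈ flt p) : U ⊓ S ∈ flt p := by
  obtain ⟨K, h1, h2, h3⟩ := hU
  obtain ⟨K', h1', h2', h3'⟩ := hS
  refine ⟨K ⊓ K', h1.inter h1', isCompact_of_le (h1.inter h1') h2 inf_le_left, ?_⟩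
  exact le_inf ((Subgroup.comap_mono inf_le_left).trans h3)
    ((Subgroup.comap_mono inf_le_right).trans h3')

theorem flt_conj {U : Subgroup Γ} (hU : U ∈ flt p) (g : Γ) :
    ∃ U' ∈ flt p, ∀ k ∈ U', g⁻¹ * k * g ∈ U := by
  obtain ⟨K, h1, h2, h3⟩ := hU
  let K' : Subgroup H := K.comap (MulAut.conj (p g)⁻¹).toMonoidHom
  have hc : Continuous fun x : H => (p g)⁻¹ * x * ((p g)⁻¹)⁻¹ := by fun_prop
  have hK' : (K' : Set H) = (fun x : H => (p g)⁻¹ * x * ((p g)⁻¹)⁻¹) ⁻¹' (K : Set H) := rfl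
  have hK'' : (K' : Set H) = (fun x : H => (p g) * x * (p g)⁻¹) '' (K : Set H) := by
    rw [hK']
    ext x
    constructor
    · intro hx
      refine ⟨_, hx, ?_⟩
      simp only
      group
    · rintro ⟨y, hy, rfl⟩
      rw [Set.mem_preimage]
      have : (p g)⁻¹ * ((p g) * y * (p g)⁻¹) * ((p g)⁻¹)⁻¹ = y := by group
      rwa [this]
  refine ⟨K'.comap p, ⟨K', ?_, ?_, le_rfl⟩, ?_⟩
  · rw [hK']; exact h1.preimage hc
  · rw [hK'']
    exact h2.image (by fun_prop)
  · intro k hk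
    refine h3 ?_
    rw [Subgroup.mem_comap, map_mul, map_mul, map_inv]
    have : (p g)⁻¹ * p k * ((p g)⁻¹)⁻¹ ∈ K := hk
    rwa [inv_inv] at this

theorem relIndex_comap_dense (hp : DenseRange p) {U W : Subgroup H} (hU : IsOpen (U : Set H))
    (hW : IsOpen (W : Set H)) : (U.comap p).relIndex (W.comap p) = U.relIndex W := by
  unfold Subgroup.relIndex Subgroup.index
  let e : (W.comap p) ⧸ (U.comap p).subgroupOf (W.comap p) → W ⧸ U.subgroupOf W :=
    Quotient.map' (fun x : W.comap p => (⟨p x, x.2⟩ : W)) (by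
      intro a b h
      rw [QuotientGroup.leftRel_apply] at h ⊢
      rw [Subgroup.mem_subgroupOf] at h ⊢
      have h' : p ((a : Γ)⁻¹ * b) ∈ U := h
      rw [map_mul, map_inv] at h'
      exact h')
  have he : ∀ x : W.comap p, e (x : (W.comap p) ⧸ (U.comap p).subgroupOf (W.comap p)) =
      ((⟨p x, x.2⟩ : W) : W ⧸ U.subgroupOf W) := fun x => rfl
  refine Nat.card_congr (Equiv.ofBijective e ⟨?_, ?_⟩)
  · intro a b h
    obtain ⟨a, rfl⟩ := QuotientGroup.mk_surjective a
    obtain ⟨b, rfl⟩ := QuotientGroup.mk_surjective b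
    rw [he, he, QuotientGroup.eq, Subgroup.mem_subgroupOf] at h
    rw [QuotientGroup.eq, Subgroup.mem_subgroupOf]
    show p ((a : Γ)⁻¹ * b) ∈ U
    rw [map_mul, map_inv]
    exact h
  · intro b
    obtain ⟨⟨w, hw⟩, rfl⟩ := QuotientGroup.mk_surjective b
    obtain ⟨γ, u, hu, h⟩ := exists_eq_mul hp (U := U ⊓ W) (hU.inter hW) w
    have h1 : p γ = w * u⁻¹ := by rw [h]; group
    have h2 : γ ∈ W.comap p := by
      rw [Subgroup.mem_comap, h1]; exact W.mul_mem hw (W.inv_mem hu.2)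
    refine ⟨((⟨γ, h2⟩ : W.comap p) : (W.comap p) ⧸ (U.comap p).subgroupOf (W.comap p)), ?_⟩
    rw [he, QuotientGroup.eq, Subgroup.mem_subgroupOf]
    show (p γ)⁻¹ * w ∈ U
    rw [h1]
    have : (w * u⁻¹)⁻¹ * w = u := by group
    rw [this]
    exact hu.1

end gen

section SL

variable {k : Type} [NontriviallyNormedField k] [IsUltrametricDist k] [ProperSpace k] {N : ℕ}

theorem relIndex_le (hN : 2 ≤ N) {U W : Subgroup (SpecialLinearGroup (Fin N) k)}
    (hU : IsOpen (U : Set (SpecialLinearGroup (Fin N) k)))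
    (hW : IsOpen (W : Set (SpecialLinearGroup (Fin N) k)))
    (hWc : IsCompact (W : Set (SpecialLinearGroup (Fin N) k))) (hUW : U ≤ W)
    (hUi : U ≤ int N k) : U.relIndex W ≤ U.relIndex (int N k) := by
  letI : MeasurableSpace (SpecialLinearGroup (Fin N) k) := borel _
  haveI : BorelSpace (SpecialLinearGroup (Fin N) k) := ⟨rfl⟩
  have h1 := haar_le hN W hWc
  rw [haar_eq_index hU hW hWc hUW, haar_eq_index hU isOpen_int isCompact_int hUi] at h1
  have h3 : (haar (U : Set (SpecialLinearGroup (Fin N) k)) : ℝ≥0∞) ≠ 0 :=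
    (hU.measure_pos _ ⟨1, Subgroup.one_mem _⟩).ne'
  have h4 : (haar (U : Set (SpecialLinearGroup (Fin N) k)) : ℝ≥0∞) ≠ ∞ :=
    (isCompact_of_le hU hWc hUW).measure_lt_top.ne
  have h5 := (ENNReal.mul_le_mul_iff_left h3 h4).mp h1
  exact_mod_cast h5

/-- **(G2)** The bound on the size of the proper members of the filter. -/
theorem volBd {Γ : Type} [Group Γ] (hN : 2 ≤ N) {p : Γ →* SpecialLinearGroup (Fin N) k}
    (hp : DenseRange p) : H628.VolBd (flt p) ((int N k).comap p) := by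
  refine ⟨⟨int N k, isOpen_int, isCompact_int, le_rfl⟩, ?_⟩
  rintro S ⟨K, hK, hKc, hKS⟩ hS U ⟨K', hK', hKc', hKU⟩ hUS hU0
  obtain ⟨W, hW, -, rfl⟩ := exists_open hp hK hKS
  obtain ⟨V, hV, -, rfl⟩ := exists_open hp hK' hKU
  have hWt : W ≠ ⊤ := by
    rintro rfl
    exact hS (Subgroup.comap_top p)
  have hWc := isCompact_of_isOpen_ne_top W hW hWt
  have hVW := comap_le hp hV hW hUS
  have hVi := comap_le hp hV isOpen_int hU0
  rw [relIndex_comap_dense hp hV hW, relIndex_comap_dense hp hV isOpen_int]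
  exact ⟨relIndex_ne_zero hV hWc, relIndex_ne_zero hV isCompact_int,
    relIndex_le hN hV hW hWc hVW hVi⟩

/-- relative conjugacy classes are infinite -/
theorem orb_SL {Γ : Type} [Group Γ] {p : Γ →* SpecialLinearGroup (Fin N) k}
    (hp : DenseRange p) (hinj : Function.Injective p)
    (hicc : ∀ g : Γ, g ≠ 1 → Set.Infinite {y : Γ | ∃ h, y = h * g * h⁻¹})
    {U : Subgroup Γ} (hU : U ∈ flt p) {g : Γ} (hg : g ≠ 1) :
    Set.Infinite {y : Γ | ∃ k ∈ U, y = k * g * k⁻¹} := by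
  obtain ⟨K, hK, -, hKU⟩ := hU
  have h1 : ¬ IsOpen ((Subgroup.centralizer {p g} : Subgroup (SpecialLinearGroup (Fin N) k)) :
      Set (SpecialLinearGroup (Fin N) k)) := by
    intro h
    have h2 := Subgroup.mem_center_iff.mp (mem_center_of_isOpen_centralizer h)
    refine hicc g hg ((Set.finite_singleton g).subset ?_)
    rintro y ⟨h, rfl⟩
    refine hinj ?_
    rw [map_mul, map_mul, h2, map_inv]
    group
  refine (SR.icc_of_dense p hp K hK g h1).mono ?_
  rintro y ⟨h, hh, rfl⟩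
  exact ⟨h, hKU hh, rfl⟩

open Vale.Agent.P092.H160 in
/-- The setting of the torsion theorem for a dense subgroup of `SL_N(k)`. -/
theorem sys_SL {Γ Λ : Type} [Group Γ] [Group Λ] {H : Type} [NormedAddCommGroup H]
    [InnerProductSpace ℂ H] [CompleteSpace H] {lam : Γ →* (H →L[ℂ] H)} {R : Λ →* (H →L[ℂ] H)}
    {ξ : H} (h1 : RegRep lam ξ) (h2 : RegRep R ξ) (hc : ∀ g v, lam g * R v = R v * lam g)
    {p : Γ →* SpecialLinearGroup (Fin N) k}
    (hp : DenseRange p) (hinj : Function.Injective p)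
    (hicc : ∀ g : Γ, g ≠ 1 → Set.Infinite {y : Γ | ∃ h, y = h * g * h⁻¹}) :
    H628.Sys lam R ξ (flt p) where
  regL := h1
  regR := h2
  comm := hc
  ne := ⟨(int N k).comap p, int N k, isOpen_int, isCompact_int, le_rfl⟩
  up := fun U hU S hS => flt_up hU hS
  inf := fun U hU U' hU' => flt_inf hU hU'
  conj := fun U hU g => flt_conj hU g
  orb := fun U hU g hg => orb_SL hp hinj hicc hU hg

end SL

end Vale.Agent.P092.H632
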