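import Vale.Agent.P092.H632.Lat
import Vale.Agent.P092.H628.TorDefs

/-!
The Haar measures of the compact subgroups of `SL_N(k)` are bounded by the Haar measure of the
group of integral matrices.
-/

set_option linter.all false

open Matrix Matrix.SpecialLinearGroup Topology MeasureTheory MeasureTheory.Measure
open Vale.Agent.P092.H971
open scoped ENNReal NNReal

namespace Vale.Agent.P092.H632

variable {k : Type} [NontriviallyNormedField k] [IsUltrametricDist k] [ProperSpace k] {N : ℕ}

section conj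

/-- conjugation by an invertible matrix -/
def cjf (A : GL (Fin N) k) (g : SpecialLinearGroup (Fin N) k) : SpecialLinearGroup (Fin N) k :=
  ⟨(A : Matrix (Fin N) (Fin N) k) * (g : Matrix (Fin N) (Fin N) k) *
    ((A⁻¹ : GL (Fin N) k) : Matrix (Fin N) (Fin N) k), by
    rw [Matrix.det_units_conj]; exact g.2⟩

theorem cjf_mul (A B : GL (Fin N) k) (g : SpecialLinearGroup (Fin N) k) :
    cjf (A * B) g = cjf A (cjf B g) := by
  apply Subtype.ext
  show ((A * B : GL (Fin N) k) : Matrix (Fin N) (Fin N) k) * _ * (((A * B)⁻¹ : GL (Fin N) k) :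
    Matrix (Fin N) (Fin N) k) = (A : Matrix (Fin N) (Fin N) k) *
      ((B : Matrix (Fin N) (Fin N) k) * (g : Matrix (Fin N) (Fin N) k) *
      ((B⁻¹ : GL (Fin N) k) : Matrix (Fin N) (Fin N) k)) *
      ((A⁻¹ : GL (Fin N) k) : Matrix (Fin N) (Fin N) k)
  rw [_root_.mul_inv_rev, Units.val_mul, Units.val_mul]
  simp only [Matrix.mul_assoc]

theorem cjf_one (g : SpecialLinearGroup (Fin N) k) : cjf 1 g = g := by
  apply Subtype.ext
  show ((1 : GL (Fin N) k) : Matrix (Fin N) (Fin N) k) * _ * (((1 : GL (Fin N) k)⁻¹ : GL (Fin N) k) :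
    Matrix (Fin N) (Fin N) k) = _
  rw [inv_one, Units.val_one, Matrix.one_mul, Matrix.mul_one]

theorem cjf_map_mul (A : GL (Fin N) k) (g h : SpecialLinearGroup (Fin N) k) :
    cjf A (g * h) = cjf A g * cjf A h := by
  apply Subtype.ext
  show (A : Matrix (Fin N) (Fin N) k) * ((g : Matrix (Fin N) (Fin N) k) *
    (h : Matrix (Fin N) (Fin N) k)) * ((A⁻¹ : GL (Fin N) k) : Matrix (Fin N) (Fin N) k) =
    ((A : Matrix (Fin N) (Fin N) k) * (g : Matrix (Fin N) (Fin N) k) *
    ((A⁻¹ : GL (Fin N) k) : Matrix (Fin N) (Fin N) k)) *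
    ((A : Matrix (Fin N) (Fin N) k) * (h : Matrix (Fin N) (Fin N) k) *
    ((A⁻¹ : GL (Fin N) k) : Matrix (Fin N) (Fin N) k))
  have h1 : ((A⁻¹ : GL (Fin N) k) : Matrix (Fin N) (Fin N) k) * (A : Matrix (Fin N) (Fin N) k) = 1 :=
    Units.inv_mul A
  calc _ = (A : Matrix (Fin N) (Fin N) k) * (g : Matrix (Fin N) (Fin N) k) * 1 *
      (h : Matrix (Fin N) (Fin N) k) * ((A⁻¹ : GL (Fin N) k) : Matrix (Fin N) (Fin N) k) := by
        rw [Matrix.mul_one]; simp only [Matrix.mul_assoc]
    _ = _ := by rw [← h1]; simp only [Matrix.mul_assoc]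

theorem cjf_cont (A : GL (Fin N) k) : Continuous (cjf A) := by
  refine Continuous.subtype_mk ?_ _
  exact (continuous_const.matrix_mul continuous_subtype_val).matrix_mul continuous_const

/-- conjugation by an invertible matrix -/
def cj (A : GL (Fin N) k) : SpecialLinearGroup (Fin N) k ≃ₜ* SpecialLinearGroup (Fin N) k where
  toFun := cjf A
  invFun := cjf A⁻¹
  left_inv := fun g => by rw [← cjf_mul, inv_mul_cancel, cjf_one]
  right_inv := fun g => by rw [← cjf_mul, mul_inv_cancel, cjf_one]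
  map_mul' := cjf_map_mul A
  continuous_toFun := cjf_cont A
  continuous_invFun := cjf_cont A⁻¹

theorem cj_apply (A : GL (Fin N) k) (g : SpecialLinearGroup (Fin N) k) : cj A g = cjf A g := rfl

theorem cj_mul (A B : GL (Fin N) k) : cj (A * B) = (cj B).trans (cj A) := by
  ext1 g
  exact cjf_mul A B g

theorem cj_toGL (s g : SpecialLinearGroup (Fin N) k) : cj (toGL s) g = s * g * s⁻¹ := by
  apply Subtype.ext
  show ((toGL s : GL (Fin N) k) : Matrix (Fin N) (Fin N) k) * _ *
    (((toGL s)⁻¹ : GL (Fin N) k) : Matrix (Fin N) (Fin N) k) = _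
  rw [← map_inv, coe_GL_coe_matrix, coe_GL_coe_matrix]
  rfl

end conj

instance locallyCompact : LocallyCompactSpace (SpecialLinearGroup (Fin N) k) := by
  have h := isOpen_cong (N := N) (k := k) one_pos le_rfl
  have hc : IsCompact (cong N k 1 zero_le_one le_rfl : Set (SpecialLinearGroup (Fin N) k)) :=
    isCompact_of_bdd _ (Subgroup.isClosed_of_isOpen _ h) (fun g hg => hg.1.bdd le_rfl)
  exact hc.locallyCompactSpace_of_mem_nhds_of_group (x := 1) (h.mem_nhds (Subgroup.one_mem _))

/-- the group of integral matrices -/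
def int (N : ℕ) (k : Type) [NontriviallyNormedField k] [IsUltrametricDist k] [ProperSpace k] :
    Subgroup (SpecialLinearGroup (Fin N) k) := cong N k 1 zero_le_one le_rfl

theorem isOpen_int : IsOpen (int N k : Set (SpecialLinearGroup (Fin N) k)) :=
  isOpen_cong one_pos le_rfl

theorem isCompact_int : IsCompact (int N k : Set (SpecialLinearGroup (Fin N) k)) :=
  isCompact_of_bdd _ (Subgroup.isClosed_of_isOpen _ isOpen_int) (fun g hg => hg.1.bdd le_rfl)

theorem mem_int {g : SpecialLinearGroup (Fin N) k}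
    (h1 : bdd 1 (g : Matrix (Fin N) (Fin N) k))
    (h2 : bdd 1 ((g⁻¹ : SpecialLinearGroup (Fin N) k) : Matrix (Fin N) (Fin N) k)) :
    g ∈ int N k := by
  have key : ∀ x : SpecialLinearGroup (Fin N) k, bdd 1 (x : Matrix (Fin N) (Fin N) k) →
      near 1 x := by
    intro x hx i j
    rw [sub_eq_add_neg]
    refine (IsUltrametricDist.norm_add_le_max _ _).trans (max_le (hx i j) ?_)
    rw [norm_neg, Matrix.one_apply]
    split_ifs <;> simp
  exact ⟨key _ h1, key _ h2⟩

section haar

variable [MeasurableSpace (SpecialLinearGroup (Fin N) k)] [BorelSpace (SpecialLinearGroup (Fin N) k)]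

theorem char_mul (A B : GL (Fin N) k) :
    mulEquivHaarChar (cj (A * B)) = mulEquivHaarChar (cj A) * mulEquivHaarChar (cj B) := by
  rw [cj_mul, mulEquivHaarChar_trans, mul_comm]

/-- the modulus of conjugation -/
noncomputable def mdl : GL (Fin N) k →* ℝ≥0 where
  toFun := fun A => mulEquivHaarChar (cj A)
  map_one' := by
    have : cj (1 : GL (Fin N) k) = ContinuousMulEquiv.refl _ := by
      ext1 g; exact cjf_one g
    rw [this, mulEquivHaarChar_refl]
  map_mul' := char_mul

theorem mdl_apply (A : GL (Fin N) k) : mdl A = mulEquivHaarChar (cj A) := rfl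

theorem mdl_int {s : SpecialLinearGroup (Fin N) k} (hs : s ∈ int N k) : mdl (toGL s) = 1 := by
  have h1 := mulEquivHaarChar_smul_preimage (haar : Measure (SpecialLinearGroup (Fin N) k))
    (X := (int N k : Set (SpecialLinearGroup (Fin N) k))) (cj (toGL s))
  have h2 : (cj (toGL s)) ⁻¹' (int N k : Set (SpecialLinearGroup (Fin N) k)) =
      (int N k : Set (SpecialLinearGroup (Fin N) k)) := by
    ext g
    rw [Set.mem_preimage, cj_toGL]
    constructor
    · intro h
      have h3 := (int N k).mul_mem ((int N k).mul_mem ((int N k).inv_mem hs) h) hs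
      have h4 : s⁻¹ * (s * g * s⁻¹) * s = g := by group
      rwa [h4] at h3
    · intro h
      exact (int N k).mul_mem ((int N k).mul_mem hs h) ((int N k).inv_mem hs)
  rw [h2] at h1
  have h3 : (haar (int N k : Set (SpecialLinearGroup (Fin N) k)) : ℝ≥0∞) ≠ 0 :=
    (isOpen_int.measure_pos _ ⟨1, Subgroup.one_mem _⟩).ne'
  have h4 : (haar (int N k : Set (SpecialLinearGroup (Fin N) k)) : ℝ≥0∞) ≠ ∞ :=
    isCompact_int.measure_lt_top.ne
  rw [ENNReal.smul_def, smul_eq_mul] at h1
  have h5 : (mulEquivHaarChar (cj (toGL s)) : ℝ≥0∞) = 1 := by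
    have := congrArg (· / (haar (int N k : Set (SpecialLinearGroup (Fin N) k)) : ℝ≥0∞)) h1
    rwa [ENNReal.mul_div_cancel_right h3 h4, ENNReal.div_self h3 h4] at this
  exact_mod_cast h5

theorem mdl_toGL (hN : 2 ≤ N) (s : SpecialLinearGroup (Fin N) k) : mdl (toGL s) = 1 := by
  haveI : Nontrivial (Fin N) := Fin.nontrivial_iff_two_le.2 hN
  have h1 : (mdl.comp toGL : SpecialLinearGroup (Fin N) k →* ℝ≥0).ker = ⊤ := by
    refine eq_top_of_isOpen_normal _ (Subgroup.isOpen_mono (H₁ := int N k) ?_ isOpen_int)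
    intro s hs
    exact mdl_int hs
  have h2 : s ∈ (mdl.comp toGL : SpecialLinearGroup (Fin N) k →* ℝ≥0).ker := by
    rw [h1]; trivial
  exact h2

theorem mdl_one (hN : 2 ≤ N) (A : GL (Fin N) k) : mdl A = 1 := by
  have hd : (A : Matrix (Fin N) (Fin N) k).det ≠ 0 := by
    have := (Matrix.isUnit_iff_isUnit_det _).mp (Units.isUnit A)
    exact this.ne_zero
  set d := (A : Matrix (Fin N) (Fin N) k).det with hdd
  -- the element of the special linear group
  let s : SpecialLinearGroup (Fin N) k :=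
    ⟨d⁻¹ • ((A : Matrix (Fin N) (Fin N) k) ^ N), by
      rw [Matrix.det_smul, Matrix.det_pow, Fintype.card_fin, ← hdd, ← mul_pow,
        inv_mul_cancel₀ hd, one_pow]⟩
  have h1 : cj (A ^ N) = cj (toGL s) := by
    ext1 g
    apply Subtype.ext
    have e1 : ((A ^ N : GL (Fin N) k) : Matrix (Fin N) (Fin N) k) =
        d • (s : Matrix (Fin N) (Fin N) k) := by
      show _ = d • (d⁻¹ • ((A : Matrix (Fin N) (Fin N) k) ^ N))
      rw [smul_smul, mul_inv_cancel₀ hd, one_smul, Units.val_pow_eq_pow_val]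
    have e2 : (((A ^ N)⁻¹ : GL (Fin N) k) : Matrix (Fin N) (Fin N) k) =
        d⁻¹ • ((s⁻¹ : SpecialLinearGroup (Fin N) k) : Matrix (Fin N) (Fin N) k) := by
      have h3 : ((A ^ N : GL (Fin N) k) : Matrix (Fin N) (Fin N) k) *
          (d⁻¹ • ((s⁻¹ : SpecialLinearGroup (Fin N) k) : Matrix (Fin N) (Fin N) k)) = 1 := by
        rw [e1, Matrix.smul_mul, Matrix.mul_smul, smul_smul, mul_inv_cancel₀ hd, one_smul,
          ← Matrix.SpecialLinearGroup.coe_mul, mul_inv_cancel, Matrix.SpecialLinearGroup.coe_one]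
      exact Units.inv_eq_of_mul_eq_one_right h3
    have e3 : ((cj (toGL s) g : SpecialLinearGroup (Fin N) k) : Matrix (Fin N) (Fin N) k) =
        (s : Matrix (Fin N) (Fin N) k) * (g : Matrix (Fin N) (Fin N) k) *
          ((s⁻¹ : SpecialLinearGroup (Fin N) k) : Matrix (Fin N) (Fin N) k) := by
      rw [cj_toGL]; rfl
    show ((A ^ N : GL (Fin N) k) : Matrix (Fin N) (Fin N) k) * (g : Matrix (Fin N) (Fin N) k) *
      (((A ^ N)⁻¹ : GL (Fin N) k) : Matrix (Fin N) (Fin N) k) = _
    refine Eq.trans ?_ e3.symm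
    rw [e1, e2, Matrix.smul_mul, Matrix.smul_mul, Matrix.mul_smul, smul_smul,
      mul_inv_cancel₀ hd, one_smul]
  have h2 : mdl A ^ N = 1 := by
    rw [← map_pow, mdl_apply, h1, ← mdl_apply, mdl_toGL hN]
  exact (pow_eq_one_iff_of_nonneg zero_le (by omega)).mp h2

/-- **Volumes of compact subgroups are bounded.** -/
theorem haar_le (hN : 2 ≤ N) (O : Subgroup (SpecialLinearGroup (Fin N) k))
    (hO : IsCompact (O : Set (SpecialLinearGroup (Fin N) k))) :
    (haar (O : Set (SpecialLinearGroup (Fin N) k)) : ℝ≥0∞) ≤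
      haar (int N k : Set (SpecialLinearGroup (Fin N) k)) := by
  obtain ⟨A, hA, hb⟩ := exists_lattice O hO
  let A' : GL (Fin N) k := Matrix.GeneralLinearGroup.mkOfDetNeZero A hA
  have hA1 : ((A' : GL (Fin N) k) : Matrix (Fin N) (Fin N) k) = A := rfl
  have hA2 : ((A'⁻¹ : GL (Fin N) k) : Matrix (Fin N) (Fin N) k) = A⁻¹ := by
    rw [Matrix.coe_units_inv, hA1]
  have h1 := mulEquivHaarChar_smul_preimage (haar : Measure (SpecialLinearGroup (Fin N) k))
    (X := (int N k : Set (SpecialLinearGroup (Fin N) k))) (cj A'⁻¹)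
  rw [← mdl_apply, mdl_one hN, one_smul] at h1
  rw [← h1]
  refine measure_mono fun g hg => ?_
  rw [Set.mem_preimage]
  have h2 : ∀ g ∈ O, bdd 1 ((cj A'⁻¹ g : SpecialLinearGroup (Fin N) k) :
      Matrix (Fin N) (Fin N) k) := by
    intro g hg
    have : ((cj A'⁻¹ g : SpecialLinearGroup (Fin N) k) : Matrix (Fin N) (Fin N) k) =
        A⁻¹ * (g : Matrix (Fin N) (Fin N) k) * A := by
      show ((A'⁻¹ : GL (Fin N) k) : Matrix (Fin N) (Fin N) k) * _ *
        (((A'⁻¹)⁻¹ : GL (Fin N) k) : Matrix (Fin N) (Fin N) k) = _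
      rw [inv_inv, hA1, hA2]
    rw [this]
    exact hb g hg
  exact mem_int (h2 g hg) (by rw [← map_inv]; exact h2 _ (O.inv_mem hg))

end haar

section index

variable {G : Type} [Group G] [TopologicalSpace G] [IsTopologicalGroup G] [MeasurableSpace G]
  [BorelSpace G] {μ : Measure G} [μ.IsMulLeftInvariant]

/-- the measure of a compact open subgroup in terms of a smaller one -/
theorem haar_eq_index {U O : Subgroup G} (hU : IsOpen (U : Set G)) (hO : IsOpen (O : Set G))
    (hc : IsCompact (O : Set G)) (hUO : U ≤ O) :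
    μ (O : Set G) = (U.relIndex O : ℝ≥0∞) * μ (U : Set G) := by
  have hmo : MeasurableSet (O : Set G) := hO.measurableSet
  have hme : MeasurableEmbedding (O.subtype : O → G) := MeasurableEmbedding.subtype_coe hmo
  haveI : (μ.comap (O.subtype : O → G)).IsMulLeftInvariant := IsMulLeftInvariant.comap μ hme
  haveI : (U.subgroupOf O).FiniteIndex := ⟨relIndex_ne_zero hU hc⟩
  have h1 := (U.subgroupOf O).index_mul_measure (hU.preimage continuous_subtype_val).measurableSet
    (μ.comap (O.subtype : O → G))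
  rw [hme.comap_apply, hme.comap_apply] at h1
  have h2 : (O.subtype : O → G) '' Set.univ = (O : Set G) := by
    rw [Set.image_univ]; exact Subtype.range_coe
  have h3 : (O.subtype : O → G) '' ((U.subgroupOf O : Subgroup O) : Set O) = (U : Set G) := by
    ext x
    constructor
    · rintro ⟨y, hy, rfl⟩; exact hy
    · intro hx; exact ⟨⟨x, hUO hx⟩, hx, rfl⟩
  rw [h2, h3] at h1
  exact h1.symm

end index

end Vale.Agent.P092.H632
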