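import Vale.Agent.P092.H945.TorB

/-!
Large finite subgroups normalised by a centralizer.
-/

set_option linter.all false

namespace Vale.Agent.P092.H632

open Vale.Agent.P092.H945 (cjg mem_cjg)

theorem exists_big {Λ : Type} [Group Λ]
    (hicc : ∀ g : Λ, g ≠ 1 → Set.Infinite {y : Λ | ∃ h, y = h * g * h⁻¹}) {s : Λ} (hs : s ≠ 1)
    {C : Subgroup Λ} (hC : C = Subgroup.centralizer {s})
    (hcm : ∀ w : Λ, (cjg w C).relIndex C ≠ 0)
    (hfin : ∀ C' : Subgroup Λ, C' ≤ C → C'.relIndex C ≠ 0 →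
      Finite (Subgroup.centralizer (C' : Set Λ))) (M : ℕ) :
    ∃ F : Subgroup Λ, Finite F ∧ M ≤ Nat.card F ∧ ∀ c ∈ C, ∀ f ∈ F, c * f * c⁻¹ ∈ F := by
  classical
  obtain ⟨T, hT, hcard⟩ := (hicc s hs).exists_subset_card_eq M
  have hw : ∀ y ∈ T, ∃ h : Λ, y = h * s * h⁻¹ := fun y hy => hT hy
  choose! w hw using hw
  let B : Subgroup Λ := ⨅ y : T, cjg (w y) C
  have hB : B.relIndex C ≠ 0 := Subgroup.relIndex_iInf_ne_zero fun y => hcm _
  let N : Subgroup C := (B.subgroupOf C).normalCore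
  haveI : (B.subgroupOf C).FiniteIndex := ⟨hB⟩
  haveI hNf : N.FiniteIndex := inferInstance
  let C' : Subgroup Λ := N.map C.subtype
  have hC'C : C' ≤ C := by
    rintro _ ⟨x, -, rfl⟩
    exact x.2
  have hC'B : ∀ x ∈ C', ∀ y ∈ T, x * y = y * x := by
    rintro _ ⟨x, hx, rfl⟩ y hy
    have h1 : x ∈ B.subgroupOf C := Subgroup.normalCore_le _ hx
    have h2 : (x : Λ) ∈ B := h1
    have h3 : (x : Λ) ∈ cjg (w y) C := by
      have := (Subgroup.mem_iInf.mp h2) ⟨y, hy⟩
      exact this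
    rw [mem_cjg] at h3
    have h3 : ((w y)⁻¹ * (x : Λ) * w y) * s = s * ((w y)⁻¹ * x * w y) := by
      have h5 : ∀ z ∈ C, z * s = s * z := by
        intro z hz
        rw [hC, Subgroup.mem_centralizer_singleton_iff] at hz
        first
          | exact hz
          | exact hz.symm
      exact h5 _ h3
    show (x : Λ) * y = y * x
    rw [hw y hy]
    have h4 : (x : Λ) * (w y * s * (w y)⁻¹) = w y * ((w y)⁻¹ * x * w y * s) * (w y)⁻¹ := by group
    rw [h4]
    rw [h3]; group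
  have hidx : C'.relIndex C ≠ 0 := by
    have h1 : C'.subgroupOf C = N := by
      ext x
      rw [Subgroup.mem_subgroupOf]
      constructor
      · rintro ⟨y, hy, hxy⟩
        have : y = x := Subtype.ext hxy
        rwa [← this]
      · intro hx
        exact ⟨x, hx, rfl⟩
    unfold Subgroup.relIndex
    rw [h1]
    exact hNf.index_ne_zero
  haveI hF := hfin C' hC'C hidx
  refine ⟨Subgroup.centralizer (C' : Set Λ), hF, ?_, ?_⟩
  · have h1 : ∀ y ∈ T, y ∈ Subgroup.centralizer (C' : Set Λ) := by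
      intro y hy
      rw [Subgroup.mem_centralizer_iff]
      exact fun x hx => hC'B x hx y hy
    let f : T → Subgroup.centralizer (C' : Set Λ) := fun y => ⟨y, h1 y y.2⟩
    have hf : Function.Injective f := fun a b h => Subtype.ext (congrArg (fun z :
      Subgroup.centralizer (C' : Set Λ) => (z : Λ)) h)
    have := Nat.card_le_card_of_injective f hf
    rwa [Nat.card_eq_fintype_card, Fintype.card_coe, hcard] at this
  · intro c hc f hf
    rw [Subgroup.mem_centralizer_iff] at hf ⊢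
    rintro _ ⟨x, hx, rfl⟩
    have h1 : (⟨c, hc⟩ : C)⁻¹ * x * ((⟨c, hc⟩ : C)⁻¹)⁻¹ ∈ N :=
      (inferInstance : N.Normal).conj_mem x hx _
    have h2 := hf _ ⟨_, h1, rfl⟩
    show (x : Λ) * (c * f * c⁻¹) = c * f * c⁻¹ * x
    have h3 : (c⁻¹ * (x : Λ) * c) * f = f * (c⁻¹ * x * c) := by
      have h4 : (C.subtype ((⟨c, hc⟩ : C)⁻¹ * x * ((⟨c, hc⟩ : C)⁻¹)⁻¹) : Λ) = c⁻¹ * x * c := by
        simp
      rw [h4] at h2
      exact h2
    calc (x : Λ) * (c * f * c⁻¹) = c * ((c⁻¹ * (x : Λ) * c) * f) * c⁻¹ := by group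
      _ = c * (f * (c⁻¹ * x * c)) * c⁻¹ := by rw [h3]
      _ = c * f * c⁻¹ * x := by group

end Vale.Agent.P092.H632
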