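import Vale.Agent.P092.H729.HMi

/-!
P092 (helper632), Team N, block [N-GAPB] (A): the orbit lemma.

`t : S → H` with `⟪t (g * l), t (g * l')⟫ = ⟪t l, t l'⟫`, continuous at `1`; if `S` has the
Howe-Moore property, then `h ↦ ⟪Φ, t h⟫` has a limit at infinity for every `Φ`, and there is one
vector `t∞` with `⟪Φ, t h⟫ → ⟪Φ, t∞⟫` for all `Φ`.
-/

set_option linter.unusedSectionVars false
set_option linter.unusedVariables false

namespace Vale.Agent.P092.H632.Orb

open scoped InnerProductSpace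
open Filter Topology ContinuousLinearMap

open Vale.Agent.P092.H933 (HoweMoore)
open Vale.Agent.P092.H729.HMi (hm_lim)

variable {S : Type} [Group S] [TopologicalSpace S] [IsTopologicalGroup S]
variable {H : Type} [NormedAddCommGroup H] [InnerProductSpace ℂ H] [CompleteSpace H]

/-- finite combinations of the orbit -/
noncomputable def lt (t : S → H) : (S →₀ ℂ) →ₗ[ℂ] H := Finsupp.linearCombination ℂ t

theorem lt_apply (t : S → H) (f : S →₀ ℂ) : lt t f = f.sum fun l c => c • t l := rfl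

theorem lt_single (t : S → H) (l : S) : lt t (Finsupp.single l 1) = t l := by
  rw [lt, Finsupp.linearCombination_single, one_smul]

theorem inner_lt (t : S → H) (f : S →₀ ℂ) :
    ⟪lt t f, lt t f⟫_ℂ = f.sum fun l c => f.sum fun l' c' => (starRingEnd ℂ) c * (c' * ⟪t l, t l'⟫_ℂ) := by
  rw [lt_apply, Finsupp.sum_inner]
  refine Finsupp.sum_congr fun l _ => ?_
  rw [Finsupp.inner_sum]
  refine Finsupp.sum_congr fun l' _ => ?_
  rw [inner_smul_left, inner_smul_right]

theorem norm_lt_eq {t t' : S → H} (h : ∀ l l', ⟪t' l, t' l'⟫_ℂ = ⟪t l, t l'⟫_ℂ) (f : S →₀ ℂ) :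
    ‖lt t' f‖ = ‖lt t f‖ := by
  have h1 : ⟪lt t' f, lt t' f⟫_ℂ = ⟪lt t f, lt t f⟫_ℂ := by
    rw [inner_lt, inner_lt]
    refine Finsupp.sum_congr fun l _ => Finsupp.sum_congr fun l' _ => ?_
    rw [h]
  rw [inner_self_eq_norm_sq_to_K, inner_self_eq_norm_sq_to_K] at h1
  have h2 : ‖lt t' f‖ ^ 2 = ‖lt t f‖ ^ 2 := by exact_mod_cast h1
  exact (pow_left_inj₀ (norm_nonneg _) (norm_nonneg _) two_ne_zero).1 h2

/-- the closed span of the orbit -/
noncomputable abbrev V (t : S → H) : Submodule ℂ H := (LinearMap.range (lt t)).topologicalClosure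

instance (t : S → H) : CompleteSpace (V t) :=
  (Submodule.isClosed_topologicalClosure _).completeSpace_coe

theorem lt_mem (t : S → H) (f : S →₀ ℂ) : lt t f ∈ V t :=
  Submodule.le_topologicalClosure _ ⟨f, rfl⟩

theorem t_mem (t : S → H) (l : S) : t l ∈ V t := by
  rw [← lt_single t l]; exact lt_mem t _

/-- `lt` as a map to `V` -/
noncomputable def lv (t : S → H) : (S →₀ ℂ) →ₗ[ℂ] V t := (lt t).codRestrict (V t) (lt_mem t)

theorem lv_coe (t : S → H) (f : S →₀ ℂ) : (lv t f : H) = lt t f := rfl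

theorem dense_lv (t : S → H) : DenseRange (lv t) := by
  intro x
  rw [Metric.mem_closure_iff]
  intro ε hε
  have hx : (x : H) ∈ closure (LinearMap.range (lt t) : Set H) := x.2
  obtain ⟨y, ⟨f, rfl⟩, hy⟩ := Metric.mem_closure_iff.1 hx ε hε
  exact ⟨lv t f, ⟨f, rfl⟩, hy⟩

/-- the moved orbit map -/
noncomputable def lw (t : S → H) (g : S) : (S →₀ ℂ) →ₗ[ℂ] V t :=
  (lt fun l => t (g * l)).codRestrict (V t) fun f => by
    rw [lt_apply]
    exact Submodule.sum_mem _ fun l _ => Submodule.smul_mem _ _ (t_mem t _)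

theorem lw_coe (t : S → H) (g : S) (f : S →₀ ℂ) : (lw t g f : H) = lt (fun l => t (g * l)) f := rfl

variable {t : S → H} (ht : ∀ g l l', ⟪t (g * l), t (g * l')⟫_ℂ = ⟪t l, t l'⟫_ℂ)

include ht in
theorem norm_lw (g : S) (f : S →₀ ℂ) : ‖lw t g f‖ = ‖lv t f‖ := by
  have h1 : ‖lw t g f‖ = ‖lt (fun l => t (g * l)) f‖ := rfl
  have h2 : ‖lv t f‖ = ‖lt t f‖ := rfl
  rw [h1, h2]
  exact norm_lt_eq (fun l l' => ht g l l') f

/-- the unitary operators -/
noncomputable def U0 (t : S → H) (g : S) : V t →L[ℂ] V t := (lw t g).extendOfNorm (lv t)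

include ht in
theorem U0_lv (g : S) (f : S →₀ ℂ) : U0 t g (lv t f) = lw t g f := by
  unfold U0
  exact LinearMap.extendOfNorm_eq (dense_lv t) ⟨1, fun f => by rw [norm_lw ht, one_mul]⟩ f

include ht in
theorem U0_t (g l : S) : (U0 t g ⟨t l, t_mem t l⟩ : H) = t (g * l) := by
  have e : (⟨t l, t_mem t l⟩ : V t) = lv t (Finsupp.single l 1) :=
    Subtype.ext (lt_single t l).symm
  rw [e, U0_lv ht, lw_coe]
  exact lt_single (fun l => t (g * l)) l

include ht in
theorem norm_U0 (g : S) (ξ : V t) : ‖U0 t g ξ‖ = ‖ξ‖ := by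
  refine (dense_lv t).induction (P := fun ξ => ‖U0 t g ξ‖ = ‖ξ‖) (fun η hη => ?_)
    (isClosed_eq (U0 t g).continuous.norm continuous_norm) ξ
  obtain ⟨f, rfl⟩ := hη
  rw [U0_lv ht, norm_lw ht]

include ht in
/-- two operators which agree on the orbit are equal -/
theorem ext_t {A B : V t →L[ℂ] V t} (h : ∀ l, A ⟨t l, t_mem t l⟩ = B ⟨t l, t_mem t l⟩) :
    A = B := by
  have h1 : (A : V t → V t) = B := by
    refine (dense_lv t).equalizer A.continuous B.continuous ?_
    funext f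
    change A (lv t f) = B (lv t f)
    have e : lv t f = f.sum fun l c => c • (⟨t l, t_mem t l⟩ : V t) := by
      refine Subtype.ext ?_
      rw [lv_coe, lt_apply, Finsupp.sum, Finsupp.sum, Submodule.coe_sum]
      rfl
    rw [e, map_finsuppSum, map_finsuppSum]
    refine Finsupp.sum_congr fun l _ => ?_
    rw [map_smul, map_smul, h]
  exact DFunLike.coe_injective h1

/-- the unitary representation on the closed span of the orbit -/
noncomputable def U (ht : ∀ g l l', ⟪t (g * l), t (g * l')⟫_ℂ = ⟪t l, t l'⟫_ℂ) :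
    S →* (V t →L[ℂ] V t) where
  toFun := U0 t
  map_one' := by
    refine ext_t ht fun l => Subtype.ext ?_
    rw [U0_t ht, one_mul]; rfl
  map_mul' g h := by
    refine ext_t ht fun l => Subtype.ext ?_
    rw [U0_t ht]
    have e : U0 t h ⟨t l, t_mem t l⟩ = ⟨t (h * l), t_mem t _⟩ := Subtype.ext (U0_t ht h l)
    change _ = (U0 t g (U0 t h ⟨t l, t_mem t l⟩) : H)
    rw [e, U0_t ht, mul_assoc]

include ht in
theorem dist_t (g l l' : S) : ‖t (g * l) - t (g * l')‖ = ‖t l - t l'‖ := by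
  have h1 : ⟪t (g * l) - t (g * l'), t (g * l) - t (g * l')⟫_ℂ = ⟪t l - t l', t l - t l'⟫_ℂ := by
    simp only [inner_sub_left, inner_sub_right, ht]
  rw [inner_self_eq_norm_sq_to_K, inner_self_eq_norm_sq_to_K] at h1
  have h2 : ‖t (g * l) - t (g * l')‖ ^ 2 = ‖t l - t l'‖ ^ 2 := by exact_mod_cast h1
  exact (pow_left_inj₀ (norm_nonneg _) (norm_nonneg _) two_ne_zero).1 h2

include ht in
theorem cont_t (hc : ContinuousAt t 1) : Continuous t := by
  rw [continuous_iff_continuousAt]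
  intro l
  have h1 : Tendsto (fun g : S => l⁻¹ * g) (𝓝 l) (𝓝 1) := by
    have : Tendsto (fun g : S => l⁻¹ * g) (𝓝 l) (𝓝 (l⁻¹ * l)) :=
      (continuous_const_mul l⁻¹).tendsto l
    rwa [inv_mul_cancel] at this
  have h2 := (hc.tendsto.comp h1).sub_const (t 1)
  rw [sub_self] at h2
  have h3 := h2.norm
  rw [norm_zero] at h3
  rw [ContinuousAt, tendsto_iff_norm_sub_tendsto_zero]
  refine h3.congr fun g => ?_
  have h4 := dist_t ht l (l⁻¹ * g) 1
  rw [mul_inv_cancel_left, mul_one] at h4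
  exact h4.symm

include ht in
theorem cont_U (hc : ContinuousAt t 1) (ξ : V t) : Continuous fun g => U ht g ξ := by
  refine (dense_lv t).induction (P := fun ξ => Continuous fun g => U ht g ξ)
    (fun η hη => ?_) ?_ ξ
  · obtain ⟨f, rfl⟩ := hη
    have e : (fun g => U ht g (lv t f)) =
        fun g => ∑ l ∈ f.support, f l • (⟨t (g * l), t_mem t _⟩ : V t) := by
      funext g
      refine Subtype.ext ?_
      change (U0 t g (lv t f) : H) = _
      rw [U0_lv ht, lw_coe, lt_apply, Finsupp.sum, Submodule.coe_sum]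
      rfl
    rw [e]
    refine continuous_finsetSum _ fun l _ => ?_
    have h4 : Continuous fun g => (⟨t (g * l), t_mem t _⟩ : V t) :=
      Continuous.subtype_mk ((cont_t ht hc).comp (continuous_mul_const l)) _
    exact h4.const_smul (f l)
  · rw [← isSeqClosed_iff_isClosed]
    intro u η hu hlim
    have h1 : TendstoUniformly (fun n g => U ht g (u n)) (fun g => U ht g η) atTop := by
      rw [Metric.tendstoUniformly_iff]
      intro ε hε
      have h2 := (Metric.tendsto_nhds.1 hlim) ε hε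
      filter_upwards [h2] with n hn g
      rw [dist_eq_norm, ← map_sub]
      have h3 : ‖U ht g (η - u n)‖ = ‖η - u n‖ := norm_U0 ht g _
      rw [h3, ← dist_eq_norm, dist_comm]
      exact hn
    exact h1.continuous (Frequently.of_forall hu)

/-- **The orbit lemma.** -/
theorem orbit (hS : HoweMoore S) {t : S → H}
    (ht : ∀ g l l', ⟪t (g * l), t (g * l')⟫_ℂ = ⟪t l, t l'⟫_ℂ) (hc : ContinuousAt t 1) (Φ : H) :
    ∃ z : ℂ, Tendsto (fun h => ⟪Φ, t h⟫_ℂ) (cocompact S) (𝓝 z) := by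
  obtain ⟨P, hP⟩ : ∃ P : V t, ∀ x : V t, ⟪(x : H), Φ⟫_ℂ = ⟪x, P⟫_ℂ := by
    refine ⟨(V t).orthogonalProjectionOnto Φ, fun x => ?_⟩
    exact (Submodule.inner_orthogonalProjectionOnto_eq_of_mem_left x Φ).symm
  obtain ⟨z, hz⟩ := hm_lim hS (U ht) (norm_U0 ht) (cont_U ht hc) ⟨t 1, t_mem t 1⟩ P
  refine ⟨(starRingEnd ℂ) z, ?_⟩
  have h1 := (Complex.continuous_conj.tendsto z).comp hz
  refine h1.congr fun h => ?_
  change (starRingEnd ℂ) ⟪U0 t h ⟨t 1, t_mem t 1⟩, P⟫_ℂ = _
  have e : U0 t h ⟨t 1, t_mem t 1⟩ = ⟨t h, t_mem t h⟩ := Subtype.ext (by rw [U0_t ht, mul_one])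
  rw [e, ← hP, inner_conj_symm]

/-- the limit vector -/
theorem orbit_vec (hS : HoweMoore S) {t : S → H}
    (ht : ∀ g l l', ⟪t (g * l), t (g * l')⟫_ℂ = ⟪t l, t l'⟫_ℂ) (hc : ContinuousAt t 1) :
    ∃ t' : H, ∀ Φ : H, Tendsto (fun h => ⟪Φ, t h⟫_ℂ) (cocompact S) (𝓝 ⟪Φ, t'⟫_ℂ) := by
  choose z hz using orbit hS ht hc
  rcases (cocompact S).eq_or_neBot with h0 | h0
  · refine ⟨0, fun Φ => ?_⟩
    rw [h0]; exact tendsto_bot
  have hn : ∀ l, ‖t l‖ = ‖t 1‖ := fun l => by
    have h1 := ht l 1 1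
    rw [mul_one, inner_self_eq_norm_sq_to_K, inner_self_eq_norm_sq_to_K] at h1
    have h2 : ‖t l‖ ^ 2 = ‖t 1‖ ^ 2 := by exact_mod_cast h1
    exact (pow_left_inj₀ (norm_nonneg _) (norm_nonneg _) two_ne_zero).1 h2
  have hb : ∀ Φ, ‖z Φ‖ ≤ ‖t 1‖ * ‖Φ‖ := fun Φ => by
    refine le_of_tendsto (hz Φ).norm (Eventually.of_forall fun h => ?_)
    refine (norm_inner_le_norm _ _).trans ?_
    rw [hn, mul_comm]
  let F : H →ₗ[ℂ] ℂ :=
    { toFun := fun Φ => (starRingEnd ℂ) (z Φ)
      map_add' := fun a b => by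
        rw [← map_add]
        congr 1
        refine tendsto_nhds_unique (hz (a + b)) (((hz a).add (hz b)).congr fun h => ?_)
        rw [inner_add_left]
      map_smul' := fun c a => by
        have h1 : z (c • a) = (starRingEnd ℂ) c * z a := by
          refine tendsto_nhds_unique (hz (c • a)) (((hz a).const_mul _).congr fun h => ?_)
          rw [inner_smul_left]
        rw [h1, map_mul, Complex.conj_conj]
        rfl }
  let G : H →L[ℂ] ℂ := F.mkContinuous ‖t 1‖ fun Φ => by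
    change ‖(starRingEnd ℂ) (z Φ)‖ ≤ _
    rw [RCLike.norm_conj]
    exact hb Φ
  refine ⟨(InnerProductSpace.toDual ℂ H).symm G, fun Φ => ?_⟩
  have h1 : ⟪(InnerProductSpace.toDual ℂ H).symm G, Φ⟫_ℂ = (starRingEnd ℂ) (z Φ) := by
    rw [InnerProductSpace.toDual_symm_apply]
    rfl
  have h2 : ⟪Φ, (InnerProductSpace.toDual ℂ H).symm G⟫_ℂ = z Φ := by
    rw [← inner_conj_symm, h1, Complex.conj_conj]
  rw [h2]
  exact hz Φ

end Vale.Agent.P092.H632.Orb
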