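import Vale.Agent.P092.H729.Krn
import Vale.Agent.P092.H632.Orb

/-!
P092 (helper632), Team N, block [N-GAPB] (1), Hilbert space part, for products: the same theorem as
`H729.Krn.krn_lim`, where the hypothesis `every operator commuting with lam and Z is scalar` is
replaced by `every operator commuting with lam and Z commutes with the representation of S`.
-/

set_option linter.unusedSectionVars false
set_option linter.unusedVariables false

namespace Vale.Agent.P092.H632.KrnS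

open scoped InnerProductSpace
open Filter Topology ContinuousLinearMap
open Vale.Agent.P092.H933 (HoweMoore)
open Vale.Agent.P092.H729
open Vale.Agent.P092.H729.Krn
open Vale.Agent.P092.H729.HMi (Tw mem_Tw inner_iso inner_move cont_app)

/-! ### Intertwiners -/

section main

variable {S : Type} [Group S] [TopologicalSpace S]
variable {K Kh : Type} [NormedAddCommGroup K] [InnerProductSpace ℂ K] [CompleteSpace K]
  [NormedAddCommGroup Kh] [InnerProductSpace ℂ Kh] [CompleteSpace Kh]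

/-- the data: pairs of operators, two unitary representations of `S` normalising the pairs; the
operators commuting with the first entries of the pairs commute with `π` -/
structure DatS (π : S →* (K →L[ℂ] K)) (πh : S →* (Kh →L[ℂ] Kh))
    (R : Set ((K →L[ℂ] K) × (Kh →L[ℂ] Kh))) : Prop where
  adj : ∀ p ∈ R, (adjoint p.1, adjoint p.2) ∈ R
  nrm : ∀ p ∈ R, ∀ h, (π h * p.1 * π h⁻¹, πh h * p.2 * πh h⁻¹) ∈ R
  cm : ∀ T : K →L[ℂ] K, (∀ p ∈ R, T * p.1 = p.1 * T) → ∀ g, T * π g = π g * T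
  iso : ∀ g ξ, ‖π g ξ‖ = ‖ξ‖
  isoh : ∀ g ξ, ‖πh g ξ‖ = ‖ξ‖
  cont : ∀ ξ, Continuous fun g => π g ξ
  conth : ∀ ξ, Continuous fun g => πh g ξ

variable {π : S →* (K →L[ℂ] K)} {πh : S →* (Kh →L[ℂ] Kh)}
  {R : Set ((K →L[ℂ] K) × (Kh →L[ℂ] Kh))}

theorem DatS.pair (D : DatS π πh R) {T T' : K →L[ℂ] Kh} (hT : T ∈ Tw R) (hT' : T' ∈ Tw R) (g : S) :
    ((adjoint T).comp T') * π g = π g * ((adjoint T).comp T') := by
  refine D.cm _ (fun p hp => ?_) g
  have h1 := hT _ (D.adj p hp)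
  have h2 : (adjoint T).comp p.2 = p.1.comp (adjoint T) := by
    have := congrArg adjoint h1
    rw [adjoint_comp, adjoint_comp, adjoint_adjoint, adjoint_adjoint] at this
    exact this.symm
  change ((adjoint T).comp T').comp p.1 = p.1.comp ((adjoint T).comp T')
  rw [comp_assoc, hT' p hp, ← comp_assoc, h2, comp_assoc]

/-- the action of `S` on the intertwiners -/
theorem DatS.act_mem (D : DatS π πh R) (h : S) {T : K →L[ℂ] Kh} (hT : T ∈ Tw R) :
    (πh h).comp (T.comp (π h⁻¹)) ∈ Tw R := by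
  intro p hp
  have h1 := hT _ (D.nrm p hp h⁻¹)
  rw [inv_inv] at h1
  have e1 : π h⁻¹ * π h = 1 := by rw [← map_mul, inv_mul_cancel, map_one]
  have e2 : π h * π h⁻¹ = 1 := by rw [← map_mul, mul_inv_cancel, map_one]
  have e3 : πh h * πh h⁻¹ = 1 := by rw [← map_mul, mul_inv_cancel, map_one]
  ext ξ
  change πh h (T (π h⁻¹ (p.1 ξ))) = p.2 (πh h (T (π h⁻¹ ξ)))
  have h2 := congrArg (fun A : K →L[ℂ] Kh => A (π h⁻¹ ξ)) h1
  change T (π h⁻¹ (p.1 (π h (π h⁻¹ ξ)))) = πh h⁻¹ (p.2 (πh h (T (π h⁻¹ ξ)))) at h2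
  have e4 : π h (π h⁻¹ ξ) = ξ := congrArg (fun A : K →L[ℂ] K => A ξ) e2
  rw [e4] at h2
  rw [h2]
  exact congrArg (fun A : Kh →L[ℂ] Kh => A _) e3

/-- the Gram kernel of the orbit is left invariant -/
theorem DatS.gram (D : DatS π πh R) {T : K →L[ℂ] Kh} (hT : T ∈ Tw R) (Ω : K) (g l l' : S) :
    ⟪πh (g * l) (T (π (g * l)⁻¹ Ω)), πh (g * l') (T (π (g * l')⁻¹ Ω))⟫_ℂ =
      ⟪πh l (T (π l⁻¹ Ω)), πh l' (T (π l'⁻¹ Ω))⟫_ℂ := by
  have e : ∀ l, πh (g * l) (T (π (g * l)⁻¹ Ω)) =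
      πh g ((πh l).comp (T.comp (π l⁻¹)) (π g⁻¹ Ω)) := by
    intro l
    rw [mul_inv_rev, map_mul, map_mul]
    rfl
  rw [e, e, inner_iso D.isoh]
  have h1 := D.pair (D.act_mem l hT) (D.act_mem l' hT) g⁻¹
  obtain ⟨A, hA⟩ : ∃ A, A = (πh l).comp (T.comp (π l⁻¹)) := ⟨_, rfl⟩
  obtain ⟨B, hB⟩ : ∃ B, B = (πh l').comp (T.comp (π l'⁻¹)) := ⟨_, rfl⟩
  rw [← hA, ← hB] at h1 ⊢
  have h2 : ⟪A (π g⁻¹ Ω), B (π g⁻¹ Ω)⟫_ℂ = ⟪π g⁻¹ Ω, ((adjoint A).comp B) (π g⁻¹ Ω)⟫_ℂ := by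
    change _ = ⟪π g⁻¹ Ω, adjoint A (B (π g⁻¹ Ω))⟫_ℂ
    rw [adjoint_inner_right]
  have h3 : ((adjoint A).comp B) (π g⁻¹ Ω) = π g⁻¹ (((adjoint A).comp B) Ω) :=
    congrArg (fun Z : K →L[ℂ] K => Z Ω) h1
  rw [h2, h3, inner_iso D.iso]
  change ⟪Ω, adjoint A (B Ω)⟫_ℂ = _
  rw [adjoint_inner_right, hA, hB]
  rfl

/-- all the coefficients have a limit at infinity -/
theorem DatS.tendsto [IsTopologicalGroup S] (D : DatS π πh R) (hS : HoweMoore S) {Ω : K}
    {T : K →L[ℂ] Kh} (hT : T ∈ Tw R) (v : Kh) :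
    ∃ z : ℂ, Tendsto (fun h => ⟪v, πh h (T (π h⁻¹ Ω))⟫_ℂ) (cocompact S) (𝓝 z) := by
  refine Orb.orbit hS (t := fun h => πh h (T (π h⁻¹ Ω))) (fun g l l' => D.gram hT Ω g l l') ?_ v
  refine Continuous.continuousAt ?_
  refine cont_app D.isoh D.conth ?_
  exact T.continuous.comp ((D.cont Ω).comp continuous_inv)

/-- the form which is used: for `v = v h` moving with `πh` -/
theorem DatS.tendsto' [IsTopologicalGroup S] (D : DatS π πh R) (hS : HoweMoore S) {Ω : K}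
    {T : K →L[ℂ] Kh} (hT : T ∈ Tw R) (v : Kh) :
    ∃ z : ℂ, Tendsto (fun h => ⟪πh h v, T (π h Ω)⟫_ℂ) (cocompact S) (𝓝 z) := by
  obtain ⟨z, hz⟩ := D.tendsto hS (Ω := Ω) hT v
  have hinv : Tendsto (fun h : S => h⁻¹) (cocompact S) (cocompact S) :=
    (Homeomorph.inv S).isClosedEmbedding.tendsto_cocompact
  refine ⟨z, (hz.comp hinv).congr fun h => ?_⟩
  change ⟪v, πh h⁻¹ (T (π h⁻¹⁻¹ Ω))⟫_ℂ = _
  rw [inv_inv, inner_move D.isoh]

end main

/-! ### The limit -/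

section lim

variable {Γ S : Type} [Group Γ] [Group S] [TopologicalSpace S] [IsTopologicalGroup S]
variable {K : Type} [NormedAddCommGroup K] [InnerProductSpace ℂ K] [CompleteSpace K]

/-- **[N-GAPB] (1), the Hilbert space part**, with the hypothesis (sc') of #7240. -/
theorem krn_lim' (hS : HoweMoore S) (E : Γ → Γ → (K →L[ℂ] K)) (A : Γ → (K →L[ℂ] K))
    (herm : ∀ γ γ', adjoint (E γ γ') = E γ' γ)
    (psd : ∀ (s : Finset Γ) (ξ : Γ → K) (ζ : K), 0 ≤ ‖ζ‖ ^ 2 +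
      2 * (∑ γ ∈ s, ⟪ζ, A γ (ξ γ)⟫_ℂ).re + (∑ γ ∈ s, ∑ γ' ∈ s, ⟪ξ γ', E γ' γ (ξ γ)⟫_ℂ).re)
    (lam : Γ →* (K →L[ℂ] K)) (ladj : ∀ γ, adjoint (lam γ) = lam γ⁻¹)
    (covE : ∀ s γ γ', lam s * E γ γ' = E (s * γ) (s * γ') * lam s)
    (covA : ∀ s γ, lam s * A γ = A (s * γ) * lam s)
    (Z : Set (K →L[ℂ] K)) (Zadj : ∀ z ∈ Z, adjoint z ∈ Z)
    (ZE : ∀ z ∈ Z, ∀ γ γ', z * E γ γ' = E γ γ' * z) (ZA : ∀ z ∈ Z, ∀ γ, z * A γ = A γ * z)
    (ρ : S →* (K →L[ℂ] K)) (radj : ∀ g, adjoint (ρ g) = ρ g⁻¹)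
    (rcont : ∀ ξ, Continuous fun g => ρ g ξ) (rE : ∀ g γ γ', ρ g * E γ γ' = E γ γ' * ρ g)
    (rZ : ∀ g, ∀ z ∈ Z, ρ g * z * ρ g⁻¹ ∈ Z) (rlam : ∀ g γ, ρ g * lam γ = lam γ * ρ g)
    (sc : ∀ T : K →L[ℂ] K, (∀ γ, T * lam γ = lam γ * T) → (∀ z ∈ Z, T * z = z * T) →
      ∀ g, T * ρ g = ρ g * T) (Ω : K) :
    ∃ z : ℂ, Tendsto (fun h => ⟪ρ h Ω, A 1 (ρ h Ω)⟫_ℂ) (cocompact S) (𝓝 z) := by
  have hps : (Matrix.of E).PosSemidef := psd_of (fun a b => herm a b) (fun f => by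
    have := psd f.support f 0
    rw [norm_zero] at this
    simp only [inner_zero_left, Finset.sum_const_zero, Complex.zero_re, mul_zero, add_zero,
      ne_eq, OfNat.ofNat_ne_zero, not_false_eq_true, zero_pow, zero_add] at this
    have e : (f.sum fun x v => f.sum fun y w => ⟪Matrix.of E y x v, w⟫_ℂ) =
        (starRingEnd ℂ) (∑ γ ∈ f.support, ∑ γ' ∈ f.support, ⟪f γ', E γ' γ (f γ)⟫_ℂ) := by
      rw [map_sum, Finsupp.sum]
      refine Finset.sum_congr rfl fun a _ => ?_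
      rw [map_sum, Finsupp.sum]
      refine Finset.sum_congr rfl fun b _ => ?_
      rw [inner_conj_symm]
      rfl
    rw [e, Complex.conj_re]
    exact this)
  have : Fact (Matrix.of E).PosSemidef := ⟨hps⟩
  -- the contraction
  have hB : ∀ f : Γ →₀ K, ‖lg A f‖ ≤ 1 * ‖lc (Matrix.of E) f‖ := by
    intro f
    rw [one_mul]
    refine (pow_le_pow_iff_left₀ (norm_nonneg _) (norm_nonneg _) two_ne_zero).1 ?_
    rw [norm_lc_sq]
    have h1 := psd f.support f (-(lg A f))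
    have h2 : (∑ γ ∈ f.support, ⟪-(lg A f), A γ (f γ)⟫_ℂ) = -((‖lg A f‖ ^ 2 : ℝ) : ℂ) := by
      rw [← inner_sum]
      have : ∑ γ ∈ f.support, A γ (f γ) = lg A f := rfl
      rw [this, inner_neg_left, inner_self_eq_norm_sq_to_K]
      norm_cast
    have e : (f.sum fun x v => f.sum fun y w => ⟪Matrix.of E y x v, w⟫_ℂ) =
        (starRingEnd ℂ) (∑ γ ∈ f.support, ∑ γ' ∈ f.support, ⟪f γ', E γ' γ (f γ)⟫_ℂ) := by
      rw [map_sum, Finsupp.sum]
      refine Finset.sum_congr rfl fun a _ => ?_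
      rw [map_sum, Finsupp.sum]
      refine Finset.sum_congr rfl fun b _ => ?_
      rw [inner_conj_symm]
      rfl
    rw [e, Complex.conj_re]
    rw [h2, norm_neg, Complex.neg_re, Complex.ofReal_re] at h1
    linarith
  set M : Matrix Γ Γ (K →L[ℂ] K) := Matrix.of E with hM
  let B : Kh M →L[ℂ] K := ext M A
  have hBa : ∀ a v, B (del M a v) = A a v := fun a v => ext_apply M hB a v
  -- the movers
  have mz : ∀ z ∈ Z, Mv M (Equiv.refl Γ) z := fun z hz =>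
    ⟨fun a b => ZE z hz a b, fun a b => (ZE _ (Zadj z hz) a b).symm⟩
  have ml : ∀ s, Mv M (Equiv.mulLeft s) (lam s) := fun s =>
    ⟨fun a b => covE s a b, fun a b => by
      rw [ladj]
      have := covE s⁻¹ (s * a) (s * b)
      rw [inv_mul_cancel_left, inv_mul_cancel_left] at this
      exact this.symm⟩
  have mr : ∀ g, Mv M (Equiv.refl Γ) (ρ g) := fun g =>
    ⟨fun a b => rE g a b, fun a b => by rw [radj]; exact (rE _ a b).symm⟩
  -- the representation of `S`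
  let πh : S →* (Kh M →L[ℂ] Kh M) :=
    { toFun := fun g => mov M (Equiv.refl Γ) (ρ g)
      map_one' := by rw [map_one]; exact mov_one M
      map_mul' := fun g h => by rw [map_mul, (mr g).mov_mul M (mr h)]; rfl }
  have hπh : ∀ g, πh g = mov M (Equiv.refl Γ) (ρ g) := fun g => rfl
  have rn : ∀ g ξ, ‖ρ g ξ‖ = ‖ξ‖ := by
    intro g ξ
    have h1 : ⟪ρ g ξ, ρ g ξ⟫_ℂ = ⟪ξ, ξ⟫_ℂ := by
      rw [← adjoint_inner_left, radj]
      have : ρ g⁻¹ (ρ g ξ) = ξ := by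
        have e : ρ g⁻¹ * ρ g = 1 := by rw [← map_mul, inv_mul_cancel, map_one]
        exact congrArg (fun A : K →L[ℂ] K => A ξ) e
      rw [this]
    rw [inner_self_eq_norm_sq_to_K, inner_self_eq_norm_sq_to_K] at h1
    have h2 : ‖ρ g ξ‖ ^ 2 = ‖ξ‖ ^ 2 := by exact_mod_cast h1
    exact (pow_left_inj₀ (norm_nonneg _) (norm_nonneg _) two_ne_zero).1 h2
  have ion : ∀ g, ‖ρ g‖ ≤ 1 := fun g =>
    (ρ g).opNorm_le_bound zero_le_one fun ξ => by rw [rn, one_mul]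
  have isoh : ∀ g ξ, ‖πh g ξ‖ = ‖ξ‖ := by
    have hle : ∀ g ξ, ‖πh g ξ‖ ≤ ‖ξ‖ := fun g ξ => by
      refine ((mr g).norm_le M ξ).trans ?_
      exact (mul_le_mul_of_nonneg_right (ion g) (norm_nonneg _)).trans_eq (one_mul _)
    intro g ξ
    refine le_antisymm (hle g ξ) ?_
    have e : πh g⁻¹ (πh g ξ) = ξ := by
      have e1 : πh g⁻¹ * πh g = 1 := by rw [← map_mul, inv_mul_cancel, map_one]
      exact congrArg (fun A : Kh M →L[ℂ] Kh M => A ξ) e1
    calc ‖ξ‖ = ‖πh g⁻¹ (πh g ξ)‖ := by rw [e]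
      _ ≤ ‖πh g ξ‖ := hle _ _
  have conth : ∀ ξ, Continuous fun g => πh g ξ := by
    intro ξ
    refine (dense_lc M).induction (P := fun ξ => Continuous fun g => πh g ξ)
      (fun η hη => ?_) ?_ ξ
    · obtain ⟨f, rfl⟩ := hη
      have e : (fun g => πh g (lc M f)) = fun g => ∑ a ∈ f.support, del M a (ρ g (f a)) := by
        funext g
        rw [lc_apply, Finsupp.sum, map_sum]
        exact Finset.sum_congr rfl fun a _ => (mr g).apply M a _
      rw [e]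
      exact continuous_finsetSum _ fun a _ => (del M a).continuous.comp (rcont _)
    · rw [← isSeqClosed_iff_isClosed]
      intro u η hu hlim
      have h1 : TendstoUniformly (fun n g => πh g (u n)) (fun g => πh g η) atTop := by
        rw [Metric.tendstoUniformly_iff]
        intro ε hε
        have h2 := (Metric.tendsto_nhds.1 hlim) ε hε
        filter_upwards [h2] with n hn g
        rw [dist_eq_norm, ← map_sub, isoh, ← dist_eq_norm, dist_comm]
        exact hn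
      exact h1.continuous (Frequently.of_forall hu)
  -- the pairs
  let R : Set ((K →L[ℂ] K) × (Kh M →L[ℂ] Kh M)) :=
    {p | (∃ z ∈ Z, p = (z, mov M (Equiv.refl Γ) z)) ∨
      ∃ s, p = (lam s, mov M (Equiv.mulLeft s) (lam s))}
  have Rz : ∀ z ∈ Z, (z, mov M (Equiv.refl Γ) z) ∈ R := fun z hz => Or.inl ⟨z, hz, rfl⟩
  have Rl : ∀ s, (lam s, mov M (Equiv.mulLeft s) (lam s)) ∈ R := fun s => Or.inr ⟨s, rfl⟩
  have D : DatS ρ πh R := by
    refine ⟨?_, ?_, ?_, rn, isoh, rcont, conth⟩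
    · rintro p (⟨z, hz, rfl⟩ | ⟨s, rfl⟩)
      · dsimp only
        rw [(mz z hz).adjoint_eq]
        exact Rz _ (Zadj z hz)
      · dsimp only
        rw [(ml s).adjoint_eq, ladj]
        have := Rl s⁻¹
        have e : (Equiv.mulLeft s⁻¹ : Γ ≃ Γ) = (Equiv.mulLeft s).symm := by
          ext a; rfl
        rwa [e] at this
    · rintro p (⟨z, hz, rfl⟩ | ⟨s, rfl⟩) h
      · dsimp only
        rw [hπh, hπh, (mr h).mov_mul M (mz z hz), ((mr h).mul M (mz z hz)).mov_mul M (mr h⁻¹)]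
        exact Rz _ (rZ h z hz)
      · dsimp only
        rw [hπh, hπh, (mr h).mov_mul M (ml s), ((mr h).mul M (ml s)).mov_mul M (mr h⁻¹)]
        have e : ρ h * lam s * ρ h⁻¹ = lam s := by
          rw [rlam, mul_assoc, ← map_mul, mul_inv_cancel, map_one, mul_one]
        rw [e]
        exact Rl s
    · intro T hT
      exact sc T (fun s => hT _ (Rl s)) (fun z hz => hT _ (Rz z hz))
  -- the intertwiner
  have hBR : ∀ p ∈ R, B.comp p.2 = p.1.comp B := by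
    rintro p (⟨z, hz, rfl⟩ | ⟨s, rfl⟩)
    · refine ext_del M fun a v => ?_
      change B (mov M (Equiv.refl Γ) z (del M a v)) = z (B (del M a v))
      rw [(mz z hz).apply, hBa, hBa]
      exact congrArg (fun A : K →L[ℂ] K => A v) (ZA z hz a).symm
    · refine ext_del M fun a v => ?_
      change B (mov M (Equiv.mulLeft s) (lam s) (del M a v)) = lam s (B (del M a v))
      rw [(ml s).apply, hBa, hBa]
      exact congrArg (fun A : K →L[ℂ] K => A v) (covA s a).symm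
  have hT : adjoint B ∈ HMi.Tw R := by
    intro p hp
    have h1 := hBR _ (D.adj p hp)
    have h2 := congrArg adjoint h1
    rw [adjoint_comp, adjoint_comp] at h2
    dsimp only at h2
    rw [adjoint_adjoint, adjoint_adjoint] at h2
    exact h2.symm
  obtain ⟨z, hz⟩ := D.tendsto' hS (Ω := Ω) hT (del M 1 Ω)
  refine ⟨(starRingEnd ℂ) z, ?_⟩
  have h1 := (Complex.continuous_conj.tendsto z).comp hz
  refine h1.congr fun h => ?_
  change (starRingEnd ℂ) ⟪πh h (del M 1 Ω), adjoint B (ρ h Ω)⟫_ℂ = _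
  rw [inner_conj_symm, adjoint_inner_left]
  have e : πh h (del M 1 Ω) = del M 1 (ρ h Ω) := (mr h).apply M 1 Ω
  rw [e, hBa]

end lim

end Vale.Agent.P092.H632.KrnS
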