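import Vale.Agent.P092.H971.GSL

/-!
Compact subgroups of `SL_N` of a non-archimedean local field are conjugate (in `GL_N`) to
subgroups of the integral matrices.
-/

set_option linter.all false

open Matrix Matrix.SpecialLinearGroup Topology
open Vale.Agent.P092.H971

namespace Vale.Agent.P092.H632

variable {k : Type} [NontriviallyNormedField k] [IsUltrametricDist k] [ProperSpace k] {N : ℕ}

/-- The unit ball of the norm `sup_{g ∈ O} ‖g y‖`. -/
def ball (O : Set (SpecialLinearGroup (Fin N) k)) : Set (Fin N → k) :=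
  {y | ∀ g ∈ O, ∀ i, ‖((g : Matrix (Fin N) (Fin N) k) *ᵥ y) i‖ ≤ 1}

theorem isCompact_ball {O : Set (SpecialLinearGroup (Fin N) k)} (h1 : (1 : SpecialLinearGroup (Fin N) k) ∈ O) :
    IsCompact (ball O) := by
  have hc : IsCompact (Set.pi Set.univ fun _ : Fin N => Metric.closedBall (0 : k) 1) :=
    isCompact_univ_pi fun _ => isCompact_closedBall _ _
  refine hc.of_isClosed_subset ?_ ?_
  · have : ball O = ⋂ g ∈ O, ⋂ i,
        {y : Fin N → k | ‖((g : Matrix (Fin N) (Fin N) k) *ᵥ y) i‖ ≤ 1} := by
      ext y; simp [ball]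
    rw [this]
    refine isClosed_biInter fun g _ => isClosed_iInter fun i => isClosed_le ?_ continuous_const
    exact ((_root_.continuous_apply i).comp
      (Continuous.matrix_mulVec continuous_const continuous_id)).norm
  · intro y hy i _
    rw [Metric.mem_closedBall, dist_zero_right]
    have := hy 1 h1 i
    rwa [Matrix.SpecialLinearGroup.coe_one, Matrix.one_mulVec] at this

theorem ball_mul {O : Subgroup (SpecialLinearGroup (Fin N) k)} {y : Fin N → k}
    (hy : y ∈ ball (O : Set (SpecialLinearGroup (Fin N) k))) {g : SpecialLinearGroup (Fin N) k}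
    (hg : g ∈ O) : (g : Matrix (Fin N) (Fin N) k) *ᵥ y ∈
      ball (O : Set (SpecialLinearGroup (Fin N) k)) := by
  intro h hh i
  rw [Matrix.mulVec_mulVec, ← Matrix.SpecialLinearGroup.coe_mul]
  exact hy _ (O.mul_mem hh hg) i

/-- A compact subgroup preserves a lattice. -/
theorem exists_lattice (O : Subgroup (SpecialLinearGroup (Fin N) k))
    (hO : IsCompact (O : Set (SpecialLinearGroup (Fin N) k))) :
    ∃ A : Matrix (Fin N) (Fin N) k, A.det ≠ 0 ∧
      ∀ g ∈ O, bdd 1 (A⁻¹ * (g : Matrix (Fin N) (Fin N) k) * A) := by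
  set L := ball (O : Set (SpecialLinearGroup (Fin N) k)) with hL
  have hLc : IsCompact L := isCompact_ball O.one_mem
  have hT : IsCompact (Set.pi Set.univ fun _ : Fin N => L) := isCompact_univ_pi fun _ => hLc
  obtain ⟨R, hR0, hR⟩ := exists_bound hO
  obtain ⟨t, ht0, ht⟩ := exists_small (k := k) (ε := 1 / (R + 1)) (by positivity)
  have htR : ‖t‖ * R ≤ 1 := by
    rw [le_div_iff₀ (by positivity)] at ht
    nlinarith [norm_nonneg t]
  have hf1 : (fun j : Fin N => (Pi.single j t : Fin N → k)) ∈
      Set.pi Set.univ fun _ : Fin N => L := by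
    intro j _ g hg i
    have : ((g : Matrix (Fin N) (Fin N) k) *ᵥ (Pi.single j t : Fin N → k)) i =
        (g : Matrix (Fin N) (Fin N) k) i j * t := by
      simp
    rw [this, norm_mul, mul_comm]
    exact (mul_le_mul_of_nonneg_left (hR g hg i j) (norm_nonneg t)).trans htR
  have hcont : Continuous fun f : Fin N → Fin N → k => ‖(Matrix.of f).det‖ :=
    (Continuous.matrix_det (by exact continuous_id)).norm
  obtain ⟨f, hf, hmax⟩ := hT.exists_isMaxOn ⟨_, hf1⟩ hcont.continuousOn
  have hmax' : ∀ f' ∈ Set.pi Set.univ (fun _ : Fin N => L),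
      ‖(Matrix.of f').det‖ ≤ ‖(Matrix.of f).det‖ := fun f' hf' => hmax hf'
  have hdet : (Matrix.of f).det ≠ 0 := by
    have h1 := hmax' _ hf1
    have h2 : (Matrix.of fun j : Fin N => (Pi.single j t : Fin N → k)).det = t ^ N := by
      have : (Matrix.of fun j : Fin N => (Pi.single j t : Fin N → k)) =
          Matrix.diagonal fun _ => t := by
        ext a b
        rw [Matrix.of_apply, Matrix.diagonal_apply, Pi.single_apply]
        by_cases h : a = b
        · subst h; simp
        · simp [h, Ne.symm h]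
      rw [this, Matrix.det_diagonal]
      simp
    rw [h2] at h1
    intro h0
    rw [h0, norm_zero] at h1
    exact pow_ne_zero N ht0 (norm_le_zero_iff.mp h1)
  refine ⟨(Matrix.of f)ᵀ, by rwa [Matrix.det_transpose], fun g hg i j => ?_⟩
  set A := (Matrix.of f)ᵀ with hA
  have hAdet : A.det = (Matrix.of f).det := Matrix.det_transpose _
  have hcol : (fun l => A l j) = f j := rfl
  have hb : (g : Matrix (Fin N) (Fin N) k) *ᵥ (f j) ∈ L := ball_mul (hf j trivial) hg
  have e1 : (A⁻¹ * (g : Matrix (Fin N) (Fin N) k) * A) i j =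
      (A⁻¹ *ᵥ ((g : Matrix (Fin N) (Fin N) k) *ᵥ (f j))) i := by
    rw [Matrix.mulVec_mulVec]
    rfl
  rw [e1]
  generalize (g : Matrix (Fin N) (Fin N) k) *ᵥ (f j) = b at hb
  have e2 : (A⁻¹ *ᵥ b) i = (A.det)⁻¹ * (A.updateCol i b).det := by
    rw [Matrix.inv_def, Matrix.smul_mulVec, Pi.smul_apply, smul_eq_mul,
      ← Matrix.cramer_eq_adjugate_mulVec, Matrix.cramer_apply, Ring.inverse_eq_inv']
  have e3 : ‖(A.updateCol i b).det‖ ≤ ‖A.det‖ := by
    have h3 : (A.updateCol i b).det = (Matrix.of (Function.update f i b)).det := by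
      have : A.updateCol i b = (Matrix.of (Function.update f i b))ᵀ := by
        rw [hA, Matrix.updateCol_transpose]
        rfl
      rw [this, Matrix.det_transpose]
    rw [h3, hAdet]
    refine hmax' _ fun l _ => ?_
    by_cases h : l = i
    · subst h; rw [Function.update_self]; exact hb
    · rw [Function.update_of_ne h]; exact hf l trivial
  rw [e2, norm_mul, norm_inv]
  have h4 : 0 < ‖A.det‖ := norm_pos_iff.mpr (by rw [hAdet]; exact hdet)
  rw [inv_mul_le_iff₀ h4, mul_one]
  exact e3

end Vale.Agent.P092.H632
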