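import Vale.Agent.P092.H628.TorDefs

/-!
Minimal projections in the algebra of operators of finite relative Hilbert-Schmidt norm.
-/

set_option linter.all false

open scoped InnerProductSpace ENNReal
open Filter Topology ContinuousLinearMap

namespace Vale.Agent.P092.H632

open Vale.Agent.P092.H160 (RegRep Cmm)
open Vale.Agent.P092.H628

variable {G : Type} [Group G] {H : Type} [NormedAddCommGroup H] [InnerProductSpace ℂ H]
    [CompleteSpace H] {π : G →* (H →L[ℂ] H)} {ξ : H} {K : Subgroup G}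
    {Q : (H →L[ℂ] H) → Prop}

/-- A star algebra of operators of finite relative Hilbert-Schmidt norm. -/
structure QAlg (π : G →* (H →L[ℂ] H)) (K : Subgroup G) (ξ : H) (Q : (H →L[ℂ] H) → Prop) :
    Prop where
  fin : ∀ x, Q x → nn π K ξ x ≠ ∞
  add : ∀ x y, Q x → Q y → Q (x + y)
  smul : ∀ (c : ℂ) x, Q x → Q (c • x)
  mul : ∀ x y, Q x → Q y → Q (x * y)
  adj : ∀ x, Q x → Q (adjoint x)
  bd : ∀ x, Q x → ‖x‖ₑ ^ 2 ≤ nn π K ξ x
  lim : ∀ y e : H →L[ℂ] H, Q y → (∀ z : H →L[ℂ] H, z * y = y * z → z * e = e * z) →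
    e * y ^ 2 = e → Q e

namespace QAlg

variable (hQ : QAlg π K ξ Q)

include hQ

theorem sub {x y : H →L[ℂ] H} (hx : Q x) (hy : Q y) : Q (x - y) := by
  have h := hQ.add x ((-1 : ℂ) • y) hx (hQ.smul _ _ hy)
  rwa [neg_one_smul, ← sub_eq_add_neg] at h

theorem pow {x : H →L[ℂ] H} (hx : Q x) (n : ℕ) : Q (x ^ (n + 1)) := by
  induction n with
  | zero => simpa using hx
  | succ n ih => rw [pow_succ]; exact hQ.mul _ _ ih hx

omit hQ in
theorem adj_pow {y : H →L[ℂ] H} (hs : adjoint y = y) (n : ℕ) : adjoint (y ^ n) = y ^ n := by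
  rw [← star_eq_adjoint, star_pow, star_eq_adjoint, hs]

/-- the trace of a power -/
theorem ip_pow {y : H →L[ℂ] H} (hy : Q y) (hs : adjoint y = y) (n m : ℕ) :
    ip π K ξ (y ^ (2 * n + 2)) (y ^ (2 * m + 2)) =
      ((nn π K ξ (y ^ (n + m + 2))).toReal : ℂ) := by
  rw [← ip_self _ (hQ.fin _ (hQ.pow hy (n + m + 1)))]
  unfold ip
  refine tsum_congr fun q => ?_
  have h1 : ∀ (i j : ℕ) (v : H), ⟪(y ^ i) v, (y ^ j) v⟫_ℂ = ⟪v, (y ^ (i + j)) v⟫_ℂ := by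
    intro i j v
    rw [← adjoint_inner_right, adj_pow hs, pow_add, H160.mul_ap]
  rw [h1, h1]
  congr 3
  ring

theorem nn_pow_sub {y : H →L[ℂ] H} (hy : Q y) (hs : adjoint y = y) (n m : ℕ) :
    (nn π K ξ (y ^ (2 * n + 2) - y ^ (2 * m + 2))).toReal =
      (nn π K ξ (y ^ (2 * n + 2))).toReal + (nn π K ξ (y ^ (2 * m + 2))).toReal
        - 2 * (nn π K ξ (y ^ (n + m + 2))).toReal := by
  have hn := hQ.fin _ (hQ.pow hy (2 * n + 1))
  have hm := hQ.fin _ (hQ.pow hy (2 * m + 1))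
  rw [← vec_norm' _ (nn_sub_ne hn hm), ← vec_norm' _ hn, ← vec_norm' _ hm]
  have e1 : vec (y ^ (2 * n + 2) - y ^ (2 * m + 2)) (nn_sub_ne hn hm)
      = vec (y ^ (2 * n + 2)) hn - vec (y ^ (2 * m + 2)) hm := rfl
  rw [e1, @norm_sub_sq ℂ, ← ip_eq, hQ.ip_pow hy hs]
  simp only [RCLike.re_to_complex, Complex.ofReal_re]
  ring

theorem nn_anti {y : H →L[ℂ] H} (hy : Q y) (h1 : ‖y‖ ≤ 1) :
    Antitone fun n : ℕ => (nn π K ξ (y ^ (n + 1))).toReal := by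
  refine antitone_nat_of_succ_le fun n => ?_
  refine ENNReal.toReal_mono (hQ.fin _ (hQ.pow hy n)) ?_
  rw [pow_succ' y (n + 1)]
  refine (nn_mul_left y (y ^ (n + 1)) ξ).trans ?_
  have h2 : ‖y‖ₑ ^ 2 ≤ 1 := by
    rw [esq]
    refine ENNReal.ofReal_le_one.mpr ?_
    nlinarith [norm_nonneg y]
  calc ‖y‖ₑ ^ 2 * nn π K ξ (y ^ (n + 1)) ≤ 1 * nn π K ξ (y ^ (n + 1)) := mul_le_mul_left h2 _
    _ = _ := one_mul _

theorem bd_real {x : H →L[ℂ] H} (hx : Q x) : ‖x‖ ^ 2 ≤ (nn π K ξ x).toReal := by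
  have h := hQ.bd x hx
  rw [esq] at h
  exact (ENNReal.ofReal_le_iff_le_toReal (hQ.fin x hx)).mp h

theorem pow_cauchy {y : H →L[ℂ] H} (hy : Q y) (hs : adjoint y = y) (h1 : ‖y‖ ≤ 1) :
    CauchySeq fun n : ℕ => y ^ (2 * n + 2) := by
  have hb := hQ.nn_anti hy h1
  have hlim := tendsto_atTop_ciInf hb ⟨0, by rintro _ ⟨n, rfl⟩; exact ENNReal.toReal_nonneg⟩
  set b : ℕ → ℝ := fun n : ℕ => (nn π K ξ (y ^ (n + 1))).toReal with hbdef
  set L := ⨅ n, b n with hL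
  have hLb : ∀ n, L ≤ b n := fun n => hb.le_of_tendsto hlim n
  rw [Metric.cauchySeq_iff]
  intro ε hε
  obtain ⟨N, hN⟩ := (Metric.tendsto_atTop.mp hlim) (ε ^ 2 / 2) (by positivity)
  refine ⟨N, fun n hn m hm => ?_⟩
  rw [dist_eq_norm]
  have hq : Q (y ^ (2 * n + 2) - y ^ (2 * m + 2)) :=
    hQ.sub (hQ.pow hy (2 * n + 1)) (hQ.pow hy (2 * m + 1))
  have h2 := hQ.bd_real hq
  rw [hQ.nn_pow_sub hy hs] at h2
  have a1 : b (2 * n + 1) < L + ε ^ 2 / 2 := by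
    have := hN (2 * n + 1) (by omega)
    rw [Real.dist_eq] at this
    have := (abs_lt.mp this).2
    linarith
  have a2 : b (2 * m + 1) < L + ε ^ 2 / 2 := by
    have := hN (2 * m + 1) (by omega)
    rw [Real.dist_eq] at this
    have := (abs_lt.mp this).2
    linarith
  have a3 : L ≤ b (n + m + 1) := hLb _
  simp only [hbdef] at a1 a2 a3
  have h3 : ‖y ^ (2 * n + 2) - y ^ (2 * m + 2)‖ ^ 2 < ε ^ 2 := by
    calc _ ≤ _ := h2
      _ < ε ^ 2 := by linarith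
  exact lt_of_pow_lt_pow_left₀ 2 hε.le h3

/-- Power iteration. -/
theorem exists_lim {y : H →L[ℂ] H} (hy : Q y) (hs : adjoint y = y) (h1 : ‖y‖ = 1) :
    ∃ g : H →L[ℂ] H, Q g ∧ g ≠ 0 ∧ adjoint g = g ∧ g * g = g ∧ g * y ^ 2 = g ∧
      ∀ z : H →L[ℂ] H, z * y = y → z * g = g := by
  obtain ⟨g, hg⟩ := cauchySeq_tendsto_of_complete (hQ.pow_cauchy hy hs h1.le)
  have hgy : g * y ^ 2 = g := by
    have t1 : Tendsto (fun n : ℕ => y ^ (2 * n + 2) * y ^ 2) atTop (𝓝 (g * y ^ 2)) :=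
      hg.mul_const _
    have t2 : Tendsto (fun n : ℕ => y ^ (2 * (n + 1) + 2)) atTop (𝓝 g) :=
      (tendsto_add_atTop_iff_nat 1).mpr hg
    refine tendsto_nhds_unique t1 (t2.congr fun n => ?_)
    rw [← pow_add]
    congr 1
  have hgg : g * g = g := by
    have t1 : Tendsto (fun n : ℕ => y ^ (2 * n + 2) * y ^ (2 * n + 2)) atTop (𝓝 (g * g)) :=
      hg.mul hg
    have t2 : Tendsto (fun n : ℕ => y ^ (2 * (2 * n + 1) + 2)) atTop (𝓝 g) :=
      hg.comp (tendsto_atTop_atTop.mpr fun b => ⟨b, fun a ha => by omega⟩)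
    refine tendsto_nhds_unique t1 (t2.congr fun n => ?_)
    rw [← pow_add]
    congr 1
    ring
  have hga : adjoint g = g := by
    have t1 : Tendsto (fun n : ℕ => adjoint (y ^ (2 * n + 2))) atTop (𝓝 (adjoint g)) :=
      ((adjoint : (H →L[ℂ] H) ≃ₗᵢ⋆[ℂ] (H →L[ℂ] H)).continuous.tendsto g).comp hg
    refine tendsto_nhds_unique t1 (hg.congr fun n => ?_)
    rw [adj_pow hs]
  have hcom : ∀ z : H →L[ℂ] H, z * y = y * z → z * g = g * z := by
    intro z hz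
    have t1 : Tendsto (fun n : ℕ => z * y ^ (2 * n + 2)) atTop (𝓝 (z * g)) := hg.const_mul z
    have t2 : Tendsto (fun n : ℕ => y ^ (2 * n + 2) * z) atTop (𝓝 (g * z)) := hg.mul_const z
    refine tendsto_nhds_unique t1 (t2.congr fun n => ?_)
    exact ((Commute.pow_right (show Commute z y from hz) _).eq).symm
  have hnorm : ∀ n : ℕ, 1 ≤ ‖y ^ (2 * n + 2)‖ := by
    intro n
    have hsa : IsSelfAdjoint y := by rw [IsSelfAdjoint, star_eq_adjoint, hs]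
    have e1 : ‖y ^ 2 ^ (2 * n + 2)‖ = 1 := by
      have := congrArg (fun t : NNReal => (t : ℝ)) (IsSelfAdjoint.nnnorm_pow_two_pow hsa (2 * n + 2))
      simp only [NNReal.coe_pow, coe_nnnorm, h1, one_pow] at this
      exact this
    have hle : 2 * n + 2 ≤ 2 ^ (2 * n + 2) := Nat.lt_two_pow_self.le
    obtain ⟨k, hk⟩ := Nat.exists_eq_add_of_le hle
    rw [hk, pow_add] at e1
    have h2 := norm_mul_le (y ^ (2 * n + 2)) (y ^ k)
    rw [e1] at h2
    have h3 : ‖y ^ k‖ ≤ 1 := by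
      rcases Nat.eq_zero_or_pos k with h0 | h0
      · subst h0
        rw [pow_zero]
        exact norm_id_le
      · calc ‖y ^ k‖ ≤ ‖y‖ ^ k := norm_pow_le' y h0
          _ = 1 := by rw [h1, one_pow]
    nlinarith [norm_nonneg (y ^ (2 * n + 2)), norm_nonneg (y ^ k)]
  have hg0 : g ≠ 0 := by
    intro h0
    have t1 : Tendsto (fun n : ℕ => ‖y ^ (2 * n + 2)‖) atTop (𝓝 ‖g‖) := hg.norm
    have := ge_of_tendsto' t1 hnorm
    rw [h0, norm_zero] at this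
    linarith
  refine ⟨g, hQ.lim y g hy hcom hgy, hg0, hga, hgg, hgy, ?_⟩
  intro z hz
  have t1 : Tendsto (fun n : ℕ => z * y ^ (2 * n + 2)) atTop (𝓝 (z * g)) := hg.const_mul z
  refine tendsto_nhds_unique t1 (hg.congr fun n => ?_)
  rw [show 2 * n + 2 = (2 * n + 1) + 1 from rfl, pow_succ', ← mul_assoc, hz]

end QAlg

/-- A nonzero projection of `Q`. -/
def Prj (Q : (H →L[ℂ] H) → Prop) (e : H →L[ℂ] H) : Prop :=
  Q e ∧ e ≠ 0 ∧ adjoint e = e ∧ e * e = e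

/-- Minimal projection of `Q`. -/
def MinPr (Q : (H →L[ℂ] H) → Prop) (e : H →L[ℂ] H) : Prop :=
  Q e ∧ e ≠ 0 ∧ adjoint e = e ∧ e * e = e ∧ ∀ x, Q x → ∃ c : ℂ, e * x * e = c • e

namespace QAlg

variable (hQ : QAlg π K ξ Q)

include hQ

theorem one_le {e : H →L[ℂ] H} (he : Prj Q e) : 1 ≤ (nn π K ξ e).toReal := by
  obtain ⟨h1, h2, h3, h4⟩ := he
  have h5 : ‖e‖ * ‖e‖ = ‖e‖ := by
    have : ‖star e * e‖ = ‖e‖ * ‖e‖ := CStarRing.norm_star_mul_self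
    rw [star_eq_adjoint, h3, h4] at this
    exact this.symm
  have h6 : ‖e‖ = 1 := by
    have h7 : ‖e‖ ≠ 0 := norm_ne_zero_iff.mpr h2
    exact mul_left_cancel₀ h7 (by rw [h5, mul_one])
  have := hQ.bd_real h1
  rw [h6] at this
  linarith

omit hQ in
theorem nn_split {e g : H →L[ℂ] H} (hga : adjoint g = g) (hgg : g * g = g)
    (heg : e * g = g) (hea : adjoint e = e) : nn π K ξ e = nn π K ξ g + nn π K ξ (e - g) := by
  have hge : g * e = g := by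
    have := congrArg adjoint heg
    rwa [adj_mul, hga, hea] at this
  unfold nn H628.sq
  rw [← ENNReal.tsum_add]
  refine tsum_congr fun q => ?_
  unfold fn
  generalize (π (Quotient.out q)⁻¹) ξ = v
  have h1 : ⟪g v, (e - g) v⟫_ℂ = 0 := by
    rw [← adjoint_inner_right, hga]
    have : g ((e - g) v) = 0 := by
      rw [← H160.mul_ap, mul_sub, hge, hgg, sub_self, zero_apply]
    rw [this, inner_zero_right]
  have h2 : e v = g v + (e - g) v := by rw [sub_apply]; abel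
  have h3 : ‖e v‖ ^ 2 = ‖g v‖ ^ 2 + ‖(e - g) v‖ ^ 2 := by
    rw [h2]
    have := norm_add_sq_eq_norm_sq_add_norm_sq_of_inner_eq_zero (𝕜 := ℂ) _ _ h1
    nlinarith [this]
  rw [esq, esq, esq, h3, ENNReal.ofReal_add (by positivity) (by positivity)]

/-- Minimal projections exist under every projection. -/
theorem exists_min {f : H →L[ℂ] H} (hf : Prj Q f) : ∃ e, MinPr Q e ∧ f * e = e := by
  set S : Set ℝ := {t | ∃ e, Prj Q e ∧ f * e = e ∧ t = (nn π K ξ e).toReal} with hS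
  have hne : S.Nonempty := ⟨_, f, hf, hf.2.2.2, rfl⟩
  have hbd : BddBelow S := ⟨1, by rintro _ ⟨e, he, -, rfl⟩; exact hQ.one_le he⟩
  obtain ⟨t, ⟨e, he, hfe, rfl⟩, ht⟩ := exists_lt_of_csInf_lt hne (lt_add_one (sInf S))
  have key : ∀ g, Prj Q g → e * g = g → g = e := by
    intro g hg heg
    by_contra hne
    have hd : Prj Q (e - g) := by
      have hge : g * e = g := by
        have := congrArg adjoint heg
        rwa [adj_mul, hg.2.2.1, he.2.2.1] at this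
      refine ⟨hQ.sub he.1 hg.1, sub_ne_zero.mpr (Ne.symm hne), ?_, ?_⟩
      · rw [map_sub, he.2.2.1, hg.2.2.1]
      · rw [sub_mul, mul_sub, mul_sub, he.2.2.2, heg, hge, hg.2.2.2]; abel
    have h1 := hQ.one_le hd
    have h2 : sInf S ≤ (nn π K ξ g).toReal :=
      csInf_le hbd ⟨g, hg, by rw [← heg, ← mul_assoc, hfe], rfl⟩
    have h3 := nn_split (π := π) (K := K) (ξ := ξ) hg.2.2.1 hg.2.2.2 heg he.2.2.1
    have h4 : (nn π K ξ e).toReal = (nn π K ξ g).toReal + (nn π K ξ (e - g)).toReal := by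
      rw [h3, ENNReal.toReal_add (hQ.fin _ hg.1) (hQ.fin _ hd.1)]
    linarith
  have sqe : ∀ y, Q y → adjoint y = y → e * y = y → ∃ c : ℂ, y * y = c • e := by
    intro y hy hs hey
    by_cases hy0 : y = 0
    · exact ⟨0, by rw [hy0, mul_zero, zero_smul]⟩
    have hn : (‖y‖ : ℂ) ≠ 0 := by
      rw [Ne, Complex.ofReal_eq_zero]; exact norm_ne_zero_iff.mpr hy0
    obtain ⟨g, g1, g2, g3, g4, g5, g6⟩ := hQ.exists_lim (y := ((‖y‖ : ℂ)⁻¹) • y)
      (hQ.smul _ _ hy)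
      (by rw [map_smulₛₗ, hs]; congr 1; rw [← Complex.ofReal_inv]; exact Complex.conj_ofReal _)
      (by rw [norm_smul, norm_inv, Complex.norm_real, norm_norm]
          exact inv_mul_cancel₀ (norm_ne_zero_iff.mpr hy0))
    have hge : g = e := key g ⟨g1, g2, g3, g4⟩ (g6 e (by rw [mul_smul_comm, hey]))
    rw [hge, smul_pow, mul_smul_comm, pow_two y, ← mul_assoc, hey] at g5
    refine ⟨(‖y‖ : ℂ) ^ 2, ?_⟩
    rw [← g5, smul_smul, ← mul_pow, mul_inv_cancel₀ hn, one_pow, one_smul]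
  have lin : ∀ y, Q y → adjoint y = y → e * y = y → ∃ c : ℂ, y = c • e := by
    intro y hy hs hey
    obtain ⟨c1, h1⟩ := sqe y hy hs hey
    obtain ⟨c2, h2⟩ := sqe (y + e) (hQ.add _ _ hy he.1) (by rw [map_add, hs, he.2.2.1])
      (by rw [mul_add, hey, he.2.2.2])
    have hye : y * e = y := by
      have := congrArg adjoint hey
      rwa [adj_mul, hs, he.2.2.1] at this
    rw [add_mul, mul_add, mul_add, h1, hye, hey, he.2.2.2] at h2
    refine ⟨(c2 - c1 - 1) / 2, ?_⟩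
    have h3 : (2 : ℂ) • y = (c2 - c1 - 1) • e := by
      rw [sub_smul, sub_smul, one_smul, two_smul, ← h2]
      abel
    rw [div_eq_inv_mul, mul_smul, ← h3, smul_smul]
    norm_num
  refine ⟨e, ⟨he.1, he.2.1, he.2.2.1, he.2.2.2, fun x hx => ?_⟩, hfe⟩
  set a := e * x * e with ha
  have hqa : Q a := hQ.mul _ _ (hQ.mul _ _ he.1 hx) he.1
  have hea : e * a = a := by rw [ha, ← mul_assoc, ← mul_assoc, he.2.2.2]
  have hea' : e * adjoint a = adjoint a := by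
    rw [ha, adj_mul, adj_mul, he.2.2.1, ← mul_assoc, he.2.2.2]
  obtain ⟨c1, h1⟩ := lin (a + adjoint a) (hQ.add _ _ hqa (hQ.adj _ hqa))
    (by rw [map_add, adj_adj]; abel) (by rw [mul_add, hea, hea'])
  obtain ⟨c2, h2⟩ := lin (Complex.I • (a - adjoint a)) (hQ.smul _ _ (hQ.sub hqa (hQ.adj _ hqa)))
    (by rw [map_smulₛₗ, map_sub, adj_adj]
        simp only [Complex.conj_I]
        rw [neg_smul, ← smul_neg]
        congr 1
        abel) (by rw [mul_smul_comm, mul_sub, hea, hea'])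
  refine ⟨(c1 - Complex.I * c2) / 2, ?_⟩
  have h3 : (2 : ℂ) • a = (c1 - Complex.I * c2) • e := by
    rw [sub_smul, mul_smul, ← h1, ← h2, smul_smul, Complex.I_mul_I, two_smul, neg_one_smul]
    abel
  rw [div_eq_inv_mul, mul_smul, ← h3, smul_smul]
  norm_num

/-- Every nonzero operator of `Q` is nonzero on some minimal projection. -/
theorem exists_min_mul {x : H →L[ℂ] H} (hx : Q x) (hx0 : x ≠ 0) :
    ∃ e, MinPr Q e ∧ x * e ≠ 0 := by
  have hn : (‖x‖ : ℂ) ≠ 0 := by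
    rw [Ne, Complex.ofReal_eq_zero]; exact norm_ne_zero_iff.mpr hx0
  set y : H →L[ℂ] H := ((‖x‖ : ℂ) ^ 2)⁻¹ • (adjoint x * x) with hy
  have hqy : Q y := hQ.smul _ _ (hQ.mul _ _ (hQ.adj _ hx) hx)
  have hys : adjoint y = y := by
    rw [hy, map_smulₛₗ, adj_mul, adj_adj]
    congr 1
    rw [← Complex.ofReal_pow, ← Complex.ofReal_inv]
    exact Complex.conj_ofReal _
  have hyn : ‖y‖ = 1 := by
    have : ‖star x * x‖ = ‖x‖ * ‖x‖ := CStarRing.norm_star_mul_self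
    rw [star_eq_adjoint] at this
    rw [hy, norm_smul, this, norm_inv, norm_pow, Complex.norm_real, norm_norm, ← pow_two]
    exact inv_mul_cancel₀ (pow_ne_zero _ (norm_ne_zero_iff.mpr hx0))
  obtain ⟨g, g1, g2, g3, g4, g5, g6⟩ := hQ.exists_lim hqy hys hyn
  obtain ⟨e, he, hge⟩ := hQ.exists_min ⟨g1, g2, g3, g4⟩
  refine ⟨e, he, fun h0 => he.2.1 ?_⟩
  have h1 : y * e = 0 := by rw [hy, smul_mul_assoc, mul_assoc, h0, mul_zero, smul_zero]
  have h2 : y ^ 2 * e = 0 := by rw [pow_two, mul_assoc, h1, mul_zero]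
  calc e = g * e := hge.symm
    _ = g * y ^ 2 * e := by rw [g5]
    _ = 0 := by rw [mul_assoc, h2, mul_zero]

/-- The strong form: a minimal projection under the top eigenprojection of `x* x`. -/
theorem exists_min_top {x : H →L[ℂ] H} (hx : Q x) (hx0 : x ≠ 0) :
    ∃ e, MinPr Q e ∧ adjoint x * x * e = ((‖x‖ ^ 2 : ℝ) : ℂ) • e := by
  have hn0 : ‖x‖ ≠ 0 := norm_ne_zero_iff.mpr hx0
  have hn : (‖x‖ : ℂ) ≠ 0 := by
    rw [Ne, Complex.ofReal_eq_zero]; exact hn0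
  set y : H →L[ℂ] H := ((‖x‖ : ℂ) ^ 2)⁻¹ • (adjoint x * x) with hy
  have hqy : Q y := hQ.smul _ _ (hQ.mul _ _ (hQ.adj _ hx) hx)
  have hys : adjoint y = y := by
    rw [hy, map_smulₛₗ, adj_mul, adj_adj]
    congr 1
    rw [← Complex.ofReal_pow, ← Complex.ofReal_inv]
    exact Complex.conj_ofReal _
  have hyn : ‖y‖ = 1 := by
    have : ‖star x * x‖ = ‖x‖ * ‖x‖ := CStarRing.norm_star_mul_self
    rw [star_eq_adjoint] at this
    rw [hy, norm_smul, this, norm_inv, norm_pow, Complex.norm_real, norm_norm, ← pow_two]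
    exact inv_mul_cancel₀ (pow_ne_zero _ hn0)
  obtain ⟨g, g1, g2, g3, g4, g5, g6⟩ := hQ.exists_lim hqy hys hyn
  obtain ⟨e, he, hge⟩ := hQ.exists_min ⟨g1, g2, g3, g4⟩
  refine ⟨e, he, ?_⟩
  have h1 : y ^ 2 * g = g := by
    have := congrArg adjoint g5
    rwa [adj_mul, adj_pow hys, g3] at this
  have hpos : ∀ w : H, y w = -w → w = 0 := by
    intro w hw
    have h2 : ⟪y w, w⟫_ℂ = (((‖x‖ ^ 2)⁻¹ * ‖x w‖ ^ 2 : ℝ) : ℂ) := by
      rw [hy, smul_apply, inner_smul_left, H160.mul_ap, adjoint_inner_left,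
        inner_self_eq_norm_sq_to_K, ← Complex.ofReal_pow, ← Complex.ofReal_inv,
        Complex.conj_ofReal]
      push_cast
      rfl
    rw [hw, inner_neg_left, inner_self_eq_norm_sq_to_K] at h2
    have h3 : -(‖w‖ ^ 2) = (‖x‖ ^ 2)⁻¹ * ‖x w‖ ^ 2 := by
      have h4 : ((-(‖w‖ ^ 2) : ℝ) : ℂ) = (((‖x‖ ^ 2)⁻¹ * ‖x w‖ ^ 2 : ℝ) : ℂ) := by
        rw [← h2]; push_cast; rfl
      exact_mod_cast h4
    have h5 : 0 ≤ (‖x‖ ^ 2)⁻¹ * ‖x w‖ ^ 2 := by positivity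
    have h6 : ‖w‖ ^ 2 = 0 := le_antisymm (by linarith) (by positivity)
    exact norm_eq_zero.mp (pow_eq_zero_iff (two_ne_zero) |>.mp h6)
  have h7 : y * e = e := by
    ext v
    have h8 : y ((y * e - e) v) = -((y * e - e) v) := by
      have e1 : y * (y * e - e) = -(y * e - e) := by
        have e2 : y ^ 2 * e = e := by rw [← hge, ← mul_assoc, h1]
        rw [mul_sub, ← mul_assoc, ← pow_two, e2]
        abel
      exact congrArg (fun T : H →L[ℂ] H => T v) e1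
    have h9 := hpos _ h8
    rw [sub_apply, sub_eq_zero] at h9
    exact h9
  have h10 : adjoint x * x = ((‖x‖ ^ 2 : ℝ) : ℂ) • y := by
    rw [hy, smul_smul]
    push_cast
    rw [mul_inv_cancel₀ (pow_ne_zero 2 hn), one_smul]
  rw [h10, smul_mul_assoc, h7]

end QAlg

section qd

variable {Γ Λ : Type} [Group Γ] [Group Λ] {lam : Γ →* (H →L[ℂ] H)} {R : Λ →* (H →L[ℂ] H)}
  {𝒰 : Set (Subgroup Γ)} {D : Subgroup Λ}

theorem qalg (h : Sys lam R ξ 𝒰)
    (hb : ∀ x, Qd lam R ξ 𝒰 D x → ‖x‖ₑ ^ 2 ≤ nn R D ξ x) :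
    QAlg R D ξ (Qd lam R ξ 𝒰 D) where
  fin := fun x hx => hx.fin
  add := fun x y hx hy => hx.add h hy
  smul := fun c x hx => hx.smul c
  mul := fun x y hx hy => hx.mul h hy
  adj := fun x hx => hx.adj h
  bd := hb
  lim := by
    intro y e hy hc he
    have hy2 : Qd lam R ξ 𝒰 D (y ^ 2) := by rw [pow_two]; exact hy.mul h hy
    obtain ⟨U, hU, h1, h2, h3⟩ := hy
    refine ⟨U, hU, fun k hk => (hc (lam k) (h1 k hk).symm).symm,
      fun k hk => (hc (R k) (h2 k hk).symm).symm, ?_⟩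
    rw [← he]
    exact nn_left_ne _ hy2.fin

/-- Minimal projections exist. -/
theorem exists_mn (h : Sys lam R ξ 𝒰)
    (hb : ∀ x, Qd lam R ξ 𝒰 D x → ‖x‖ₑ ^ 2 ≤ nn R D ξ x) {x : H →L[ℂ] H}
    (hx : Qd lam R ξ 𝒰 D x) (hx0 : x ≠ 0) : ∃ e, Mn lam R ξ 𝒰 D e ∧ x * e ≠ 0 := by
  obtain ⟨e, ⟨h1, h2, h3, h4, h5⟩, h6⟩ := (qalg h hb).exists_min_mul hx hx0
  exact ⟨e, ⟨h1, h2, h3, h4, h5⟩, h6⟩

/-- A minimal projection under the top eigenprojection of `x* x`. -/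
theorem exists_mn_top (h : Sys lam R ξ 𝒰)
    (hb : ∀ x, Qd lam R ξ 𝒰 D x → ‖x‖ₑ ^ 2 ≤ nn R D ξ x) {x : H →L[ℂ] H}
    (hx : Qd lam R ξ 𝒰 D x) (hx0 : x ≠ 0) :
    ∃ e, Mn lam R ξ 𝒰 D e ∧ adjoint x * x * e = ((‖x‖ ^ 2 : ℝ) : ℂ) • e := by
  obtain ⟨e, ⟨h1, h2, h3, h4, h5⟩, h6⟩ := (qalg h hb).exists_min_top hx hx0
  exact ⟨e, ⟨h1, h2, h3, h4, h5⟩, h6⟩

/-- Minimal projections exist under every projection. -/
theorem exists_mn_le (h : Sys lam R ξ 𝒰)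
    (hb : ∀ x, Qd lam R ξ 𝒰 D x → ‖x‖ₑ ^ 2 ≤ nn R D ξ x) {f : H →L[ℂ] H}
    (hf : Qd lam R ξ 𝒰 D f) (hf0 : f ≠ 0) (hfa : adjoint f = f) (hff : f * f = f) :
    ∃ e, Mn lam R ξ 𝒰 D e ∧ f * e = e := by
  obtain ⟨e, ⟨h1, h2, h3, h4, h5⟩, h6⟩ := (qalg h hb).exists_min ⟨hf, hf0, hfa, hff⟩
  exact ⟨e, ⟨h1, h2, h3, h4, h5⟩, h6⟩

end qd

end Vale.Agent.P092.H632
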