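import Vale.Agent.P092.H107.Nws
import Vale.Agent.P092.H575.Geo6

/-!
P092, D-ULTRA, row [U5] (helper632): the field `SD.NWS` over any local field, from the output of the
engine; and the near-wall sets over an ultrametric local field.
-/

set_option linter.all false

namespace Vale.Agent.P092.H632.U5

open Filter Topology ContinuousLinearMap Matrix
open scoped InnerProductSpace
open Vale.Agent.P092.H859.CL
open Vale.Agent.P092.SD (G3 PP tau bw nm NW NWS)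
open Vale.Agent.P092.H107 (LocAt tail_base tail_shift)

section gen

variable {k : Type} [NontriviallyNormedField k] [ProperSpace k] {Γ K : Type} [Group Γ]
  [NormedAddCommGroup K] [InnerProductSpace ℂ K] [CompleteSpace K] {m : Set Γ → (K →L[ℂ] K)}
  {Bd Bf : Set K}

/-- Uniform tails of a quasi-invariant function along the conjugates of the powers of the wall
element. -/
theorem tail_conj {w : kˣ} {π : G3 k →* (K →L[ℂ] K)} {Ω : K} {ms : G3 k → Set Γ → ℝ}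
    {A : Subgroup (G3 k)} {G1 G2 : Γ → ℝ}
    (h : Sys m (fun g => π g) Bd ms A G1 G2) (hA : (bw w)⁻¹ ∈ A)
    (hf : Full m (fun g => π g) G1 G2 (map (fun N : ℕ => (bw w ^ N)⁻¹) atTop))
    (hfin : ∀ ξ, ∀ ε : ℝ, 0 < ε → ∃ F : Finset Γ, ‖m ((F : Set Γ))ᶜ ξ‖ ≤ ε)
    (hloc : ∀ v, LocAt m (π v) Bf) (hmap : ∀ v, ∀ ζ ∈ Bf, π v ζ ∈ Bf) (hΩ : Ω ∈ Bf)
    (hG : ∀ u, ∃ C, ∀ g, |G2 (g * u) - G2 g| ≤ C) (g : G3 k) {ε : ℝ} (hε : 0 < ε) :
    ∃ r, ∀ N : ℕ, ‖m {γ | r < G2 γ} (π (g * bw w ^ N * g⁻¹)⁻¹ Ω)‖ ≤ ε := by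
  have h1 : ∀ ε : ℝ, 0 < ε → ∃ r, ∀ N : ℕ,
      ‖m {γ | r < G2 γ} (π (bw w ^ N)⁻¹ (π g⁻¹ Ω))‖ ≤ ε := fun ε hε =>
    tail_base h (fun N => by rw [← inv_pow]; exact A.pow_mem hA N) hf hfin (π g⁻¹ Ω) hε
  obtain ⟨r, hr⟩ := tail_shift h.prj (hloc g) hG
    (fun N : ℕ => π (bw w ^ N)⁻¹ (π g⁻¹ Ω)) (fun N => hmap _ _ (hmap _ _ hΩ)) h1 hε
  refine ⟨r, fun N => ?_⟩
  have e : π (g * bw w ^ N * g⁻¹)⁻¹ Ω = π g (π (bw w ^ N)⁻¹ (π g⁻¹ Ω)) := by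
    have : (g * bw w ^ N * g⁻¹)⁻¹ = g * ((bw w ^ N)⁻¹ * g⁻¹) := by group
    rw [this, map_mul, map_mul]
    rfl
  rw [e]
  exact hr N

/-- **[U5]** The field `nws`, over any local field `k`. -/
theorem nws_gen {w : kˣ} {π : G3 k →* (K →L[ℂ] K)} {Ω : K} {q : Γ →* G3 k}
    {ms : G3 k → Set Γ → ℝ} {A : Subgroup (G3 k)} {G1 G2 : Γ → ℝ}
    (h : Sys m (fun g => π g) Bd ms A G1 G2) (hA : (bw w)⁻¹ ∈ A)
    (hf : Full m (fun g => π g) G1 G2 (map (fun N : ℕ => (bw w ^ N)⁻¹) atTop))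
    (hfin : ∀ ξ, ∀ ε : ℝ, 0 < ε → ∃ F : Finset Γ, ‖m ((F : Set Γ))ᶜ ξ‖ ≤ ε)
    (hloc : ∀ v, LocAt m (π v) Bf) (hmap : ∀ v, ∀ ζ ∈ Bf, π v ζ ∈ Bf) (hΩ : Ω ∈ Bf)
    (hG : ∀ u, ∃ C, ∀ g, |G2 (g * u) - G2 g| ≤ C)
    (hNW : ∀ r : ℝ, ∃ R : ℝ, ∀ γ, G2 γ ≤ r → NW R (q γ)) : NWS w π Ω m q := by
  intro g ε hε
  obtain ⟨r, hr⟩ := tail_conj h hA hf hfin hloc hmap hΩ hG g hε
  obtain ⟨R, hR⟩ := hNW r
  refine ⟨R, fun N => (h.prj.mono ?_ _).trans (hr N)⟩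
  intro γ hγ
  by_contra h3
  exact hγ (hR γ (not_lt.mp h3))

end gen

section ultra

variable {k : Type} [NontriviallyNormedField k] [IsUltrametricDist k]

open Vale.Agent.P092.H933 Vale.Agent.P092.H575

theorem nm_eq_nr (h : G3 k) : nm h = nr h.1 := by
  refine le_antisymm ?_ ?_
  · exact (pi_norm_le_iff_of_nonneg (nr_nonneg _)).2 fun i =>
      (pi_norm_le_iff_of_nonneg (nr_nonneg _)).2 fun j => entry_le_nr h.1 i j
  · refine nr_le (norm_nonneg _) fun i j => ?_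
    exact (norm_le_pi_norm (fun j => h.1 i j) j).trans
      (norm_le_pi_norm (fun i j => h.1 i j : Fin 3 → Fin 3 → k) i)

theorem det_ne (h : G3 k) : h.1.det ≠ 0 := by
  rw [h.2]
  exact one_ne_zero

/-- the norm is the first singular value -/
theorem nm_eq_sv (h : G3 k) : nm h = sv h.1 0 := by
  rw [nm_eq_nr]
  exact le_antisymm (nr_le_sv h.1 (by norm_num)) (sv_zero_le (by norm_num) h.1)

theorem prod_sv (h : G3 k) : sv h.1 0 * sv h.1 1 * sv h.1 2 = 1 := by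
  have h1 := norm_det_eq h.1
  rw [h.2, norm_one, Fin.prod_univ_three] at h1
  exact h1.symm

/-- the norm of the inverse is at most the inverse of the last singular value -/
theorem nm_inv_le (h : G3 k) : nm h⁻¹ ≤ (sv h.1 2)⁻¹ := by
  rw [nm_eq_nr, sl_inv_val]
  exact nr_inv_eq (by norm_num) (SpecialLinearGroup.toGL h)

/-- the norm of the inverse is the inverse of the last singular value -/
theorem nm_inv_eq (h : G3 k) : nm h⁻¹ = (sv h.1 2)⁻¹ := by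
  refine le_antisymm (nm_inv_le h) ?_
  have h1 := nm_inv_le h⁻¹
  rw [inv_inv] at h1
  have h2 : sv (h⁻¹).1 0 = nm h⁻¹ := (nm_eq_sv h⁻¹).symm
  rw [← h2, sl_inv_val]
  exact le_of_eq (sv_inv (SpecialLinearGroup.toGL h) 0).symm

theorem g2_log (h : G3 k) : g2 h.1 = Real.log (sv h.1 1 / sv h.1 2) :=
  g2_eq_log (n := 3) (by norm_num) (SpecialLinearGroup.toGL h)

theorem g1_log (h : G3 k) : g1 h.1 = Real.log (sv h.1 0 / sv h.1 1) :=
  g1_eq_log (n := 3) (by norm_num) (SpecialLinearGroup.toGL h)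

theorem exp_g2 (h : G3 k) : Real.exp (g2 h.1) = sv h.1 1 / sv h.1 2 := by
  rw [g2_log, Real.exp_log]
  exact div_pos (sv_pos (det_ne h) _) (sv_pos (det_ne h) _)

theorem exp_g1 (h : G3 k) : Real.exp (g1 h.1) = sv h.1 0 / sv h.1 1 := by
  rw [g1_log, Real.exp_log]
  exact div_pos (sv_pos (det_ne h) _) (sv_pos (det_ne h) _)

/-- `nm h⁻¹ ^ 2 = exp (g2 h) * nm h` -/
theorem nm_inv_sq (h : G3 k) : nm h⁻¹ ^ 2 = Real.exp (g2 h.1) * nm h := by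
  have h0 := sv_pos (det_ne h) (0 : Fin 3)
  have h1 := sv_pos (det_ne h) (1 : Fin 3)
  have h2 := sv_pos (det_ne h) (2 : Fin 3)
  have hp := prod_sv h
  rw [nm_inv_eq, exp_g2, nm_eq_sv]
  have h3 : (sv h.1 2)⁻¹ = sv h.1 0 * sv h.1 1 := inv_eq_of_mul_eq_one_left hp
  rw [div_eq_mul_inv, sq, h3]
  ring

/-- over an ultrametric field the near-wall elements are exactly the elements with bounded second
gap -/
theorem nw_iff (R : ℝ) (h : G3 k) : NW R h ↔ Real.exp (g2 h.1) ≤ R := by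
  have h0 : 0 < nm h := by
    rw [nm_eq_sv]
    exact sv_pos (det_ne h) _
  rw [NW, nm_inv_sq]
  exact mul_le_mul_iff_left₀ h0

theorem nw_of_g2 {r : ℝ} {h : G3 k} (hr : g2 h.1 ≤ r) : NW (Real.exp r) h :=
  (nw_iff _ h).2 (Real.exp_le_exp.2 hr)

/-- `nm h ^ 2 = exp (g1 h) * nm h⁻¹` -/
theorem nm_sq (h : G3 k) : nm h ^ 2 = Real.exp (g1 h.1) * nm h⁻¹ := by
  have h1 := nm_inv_sq h⁻¹
  rw [inv_inv, g2_inv'] at h1
  exact h1

/-- quasi-invariance of the second gap -/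
theorem g2_right {Γ : Type} [Group Γ] (q : Γ →* G3 k) (u : Γ) :
    ∃ C, ∀ g, |g2 (q (g * u)).1 - g2 (q g).1| ≤ C := by
  refine ⟨(Real.log (nr (1 : Matrix (Fin 3) (Fin 3) k)) +
    Real.log (nr (1 : Matrix (Fin 3) (Fin 3) k)⁻¹)) +
    (Real.log (nr (q u).1) + Real.log (nr ((q u).1)⁻¹)), fun g => ?_⟩
  have h1 := la_qi (1 : (Matrix (Fin 3) (Fin 3) k)ˣ) (SpecialLinearGroup.toGL (q g))
    (SpecialLinearGroup.toGL (q u)) (i := 1) (j := 2) (by norm_num) (by norm_num)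
  have h2 : (1 * SpecialLinearGroup.toGL (q g) * SpecialLinearGroup.toGL (q u) :
      (Matrix (Fin 3) (Fin 3) k)ˣ).1 = (q (g * u)).1 := by
    rw [one_mul, map_mul]
    rfl
  rw [h2] at h1
  exact h1

/-- **[U5]**, ultrametric: the field `nws` for the gaps `g1`, `g2`. -/
theorem nws_ultra [ProperSpace k] {Γ K : Type} [Group Γ] [NormedAddCommGroup K]
    [InnerProductSpace ℂ K] [CompleteSpace K] {m : Set Γ → (K →L[ℂ] K)} {Bd Bf : Set K}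
    {w : kˣ} {π : G3 k →* (K →L[ℂ] K)} {Ω : K} {q : Γ →* G3 k}
    {ms : G3 k → Set Γ → ℝ} {A : Subgroup (G3 k)}
    (h : Sys m (fun g => π g) Bd ms A (fun γ => g1 (q γ).1) (fun γ => g2 (q γ).1))
    (hA : (bw w)⁻¹ ∈ A)
    (hf : Full m (fun g => π g) (fun γ => g1 (q γ).1) (fun γ => g2 (q γ).1)
      (map (fun N : ℕ => (bw w ^ N)⁻¹) atTop))
    (hfin : ∀ ξ, ∀ ε : ℝ, 0 < ε → ∃ F : Finset Γ, ‖m ((F : Set Γ))ᶜ ξ‖ ≤ ε)
    (hloc : ∀ v, LocAt m (π v) Bf) (hmap : ∀ v, ∀ ζ ∈ Bf, π v ζ ∈ Bf) (hΩ : Ω ∈ Bf) :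
    NWS w π Ω m q :=
  nws_gen h hA hf hfin hloc hmap hΩ (g2_right q) fun r => ⟨Real.exp r, fun γ hγ => nw_of_g2 hγ⟩

end ultra

end Vale.Agent.P092.H632.U5
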